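import Crest.Agent.X277.Strat.StB
import Crest.Agent.X277.Res.LogD

-- ▼ part X262/Blow/Cen
section

/-!
# Row 262, BLOW (helper98), part Cen: smooth centres on a projective model

* `InI O s a`    : `a` is in the ideal of `O` generated by the family `s`;
* `CoI O t`      : coordinates with any finite index type;
* `Ad q x s w`   : `(s, w)` are coordinates at `x`, `s` generates the ideal of the centre of `q`;
* `SmC P q c d`  : the centre of the place `q` on `P` is smooth, of codimension `c`, dimension `d`;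
* `SmC.model`, `SmC.mdl`, `Ad.coI` : the centre as a projective model, its coordinates.
-/

set_option autoImplicit false
set_option linter.unusedSectionVars false

open Filter Topology

noncomputable section

namespace Crest.Agent.X262.Blow

open Crest.Agent.X277.Lef Crest.Agent.X277.Res.Out Crest.Agent.X277.AN.G1
  Crest.Agent.X277.Res.Log Crest.Agent.X277.Strat.Fac

variable {F κ : Type} [Field F] [Field κ] [Algebra ℂ F] [Algebra ℂ κ]

section Ideal

variable {ι ι' : Type} [Fintype ι] [Fintype ι'] {O O' : Subalgebra ℂ F} {s : ι → F} {a b : F}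

/-- `a` is in the ideal of `O` generated by the family `s` -/
def InI (O : Subalgebra ℂ F) (s : ι → F) (a : F) : Prop :=
  ∃ r : ι → F, (∀ l, r l ∈ O) ∧ a = ∑ l, r l * s l

theorem InI.zero : InI O s 0 := ⟨0, fun _ => zero_mem _, by simp⟩

theorem InI.add (ha : InI O s a) (hb : InI O s b) : InI O s (a + b) := by
  obtain ⟨r, hr, rfl⟩ := ha
  obtain ⟨r', hr', rfl⟩ := hb
  exact ⟨fun l => r l + r' l, fun l => add_mem (hr l) (hr' l), by
    simp only [add_mul, Finset.sum_add_distrib]⟩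

theorem InI.mul_left (hb : b ∈ O) (ha : InI O s a) : InI O s (b * a) := by
  obtain ⟨r, hr, rfl⟩ := ha
  exact ⟨fun l => b * r l, fun l => mul_mem hb (hr l), by simp only [Finset.mul_sum, mul_assoc]⟩

theorem InI.mul_right (ha : InI O s a) (hb : b ∈ O) : InI O s (a * b) :=
  mul_comm b a ▸ ha.mul_left hb

theorem InI.neg (ha : InI O s a) : InI O s (-a) := by
  simpa using ha.mul_left (neg_mem (one_mem O))

theorem InI.sub (ha : InI O s a) (hb : InI O s b) : InI O s (a - b) := by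
  rw [sub_eq_add_neg]; exact ha.add hb.neg

theorem InI.sum {τ : Type*} (T : Finset τ) {f : τ → F} (h : ∀ j ∈ T, InI O s (f j)) :
    InI O s (∑ j ∈ T, f j) :=
  Finset.sum_induction _ _ (fun _ _ => InI.add) InI.zero h

theorem InI.self (l : ι) : InI O s (s l) := by
  classical
  refine ⟨fun j => if j = l then 1 else 0, fun j => ?_, by simp⟩
  dsimp only
  split_ifs
  exacts [one_mem _, zero_mem _]

theorem InI.trans {s' : ι' → F} (ha : InI O s a) (h : ∀ l, InI O s' (s l)) : InI O s' a := by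
  obtain ⟨r, hr, rfl⟩ := ha
  exact InI.sum _ fun l _ => (h l).mul_left (hr l)

theorem InI.mono (ha : InI O s a) (h : O ≤ O') : InI O' s a := by
  obtain ⟨r, hr, rfl⟩ := ha
  exact ⟨r, fun l => h (hr l), rfl⟩

theorem InI.mem (ha : InI O s a) (h : ∀ l, s l ∈ O) : a ∈ O := by
  obtain ⟨r, hr, rfl⟩ := ha
  exact sum_mem fun l _ => mul_mem (hr l) (h l)

/-- division by a common divisor of the generators -/
theorem InI.div_mem {g : F} (ha : InI O s a) (h : ∀ l, s l / g ∈ O) : a / g ∈ O := by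
  obtain ⟨r, hr, rfl⟩ := ha
  rw [Finset.sum_div]
  exact sum_mem fun l _ => by rw [mul_div_assoc]; exact mul_mem (hr l) (h l)

theorem InI.v_eq {L : LP F} (ha : InI L.O s a) (h : ∀ l, s l ∈ L.O) (h0 : ∀ l, L.v (s l) = 0) :
    L.v a = 0 := by
  obtain ⟨r, hr, rfl⟩ := ha
  rw [LP.v_sum _ fun l _ => mul_mem (hr l) (h l)]
  exact Finset.sum_eq_zero fun l _ => by rw [L.v_mul (hr l) (h l), h0, mul_zero]

theorem InI.π_eq {q : Plc F κ} (ha : InI q.O s a) (h : ∀ l, s l ∈ q.O) (h0 : ∀ l, q.π (s l) = 0) :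
    q.π a = 0 := by
  obtain ⟨r, hr, rfl⟩ := ha
  rw [π_sum _ fun l _ => mul_mem (hr l) (h l)]
  exact Finset.sum_eq_zero fun l _ => by rw [q.π_mul (hr l) (h l), h0, mul_zero]

theorem inI_unique {t : F} [Unique ι] : InI O (fun _ : ι => t) a ↔ ∃ r ∈ O, a = r * t :=
  ⟨fun ⟨r, hr, h⟩ => ⟨r default, hr _, by simpa using h⟩,
    fun ⟨r, hr, h⟩ => ⟨fun _ => r, fun _ => hr, by simpa using h⟩⟩

variable [DecidableEq ι] [DecidableEq ι']

/-- coordinates with any finite index type -/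
structure CoI (O : Subalgebra ℂ F) (t : ι → F) : Prop where
  van : ∀ l, Van O (t l)
  gen : ∀ x, Van O x → InI O t x
  der : ∃ d : ι → Derivation ℂ F F, (∀ l, ∀ x ∈ O, d l x ∈ O) ∧
    ∀ l j, d l (t j) = if l = j then 1 else 0

theorem CoI.mem (h : CoI O s) (l : ι) : s l ∈ O := (h.van l).1

theorem CoI.reindex (h : CoI O s) (e : ι' ≃ ι) : CoI O (fun l => s (e l)) where
  van l := h.van _
  gen x hx := (h.gen x hx).trans fun l => by
    simpa using InI.self (O := O) (s := fun l => s (e l)) (e.symm l)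
  der := by
    obtain ⟨d, h1, h2⟩ := h.der
    exact ⟨fun l => d (e l), fun l => h1 _, fun l j => by simp [h2]⟩

theorem coI_iff {n : ℕ} {t : Fin n → F} : CoI O t ↔ Coords O t :=
  ⟨fun h => ⟨h.van, h.gen, by simpa using h.der⟩, fun h => ⟨h.van, h.gen, by simpa using h.der⟩⟩

theorem CoI.coords (h : CoI O s) {n : ℕ} (e : Fin n ≃ ι) : Coords O (fun l => s (e l)) :=
  coI_iff.1 (h.reindex e)

theorem CoI.exists_coords (h : CoI O s) : ∃ (n : ℕ) (t : Fin n → F), Coords O t :=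
  ⟨_, _, h.coords (Fintype.equivFin ι).symm⟩

theorem CoI.ne_zero (h : CoI O s) (l : ι) : s l ≠ 0 := by
  simpa using (h.coords (Fintype.equivFin ι).symm).ne_zero (Fintype.equivFin ι l)

theorem CoI.v_eq {L : LP F} (h : CoI L.O s) (l : ι) : L.v (s l) = 0 := (van_iff_v.1 (h.van l)).2

theorem CoI.primeElt {P : PModel ℂ F} {x : Pts P} (h : CoI (lp x).O s) (l : ι) :
    PrimeElt (lp x).O (s l) := by
  simpa using primeElt_coord (h.coords (Fintype.equivFin ι).symm) (Fintype.equivFin ι l)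

end Ideal

variable {P : PModel ℂ F} {c d : ℕ} {q : Plc F κ}

/-- `(s, w)` are coordinates at the point `x` of the centre of `q`, and `s` generates the ideal of
the centre -/
structure Ad (q : Plc F κ) (x : Pts P) (s : Fin c → F) (w : Fin d → F) : Prop where
  le : (lp x).O ≤ q.O
  co : CoI (lp x).O (Sum.elim s w)
  ker : ∀ a ∈ (lp x).O, q.π a = 0 ↔ InI (lp x).O s a

/-- the centre `Z = {x | (lp x).O ≤ q.O}` of `q` on `P` is smooth of codimension `c` and dimension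
`d`, `q.O` is its local ring and `κ` its function field -/
structure SmC (P : PModel ℂ F) (q : Plc F κ) (c d : ℕ) : Prop where
  surj : ∀ z, ∃ f ∈ q.O, q.π f = z
  ne : ∃ x : Pts P, (lp x).O ≤ q.O
  loc : ∀ x : Pts P, (lp x).O ≤ q.O → ∀ f ∈ q.O,
    ∃ a ∈ (lp x).O, ∃ c ∈ (lp x).O, q.π c ≠ 0 ∧ f * c = a
  crd : ∀ x : Pts P, (lp x).O ≤ q.O → ∃ (s : Fin c → F) (w : Fin d → F), Ad q x s w

/-- it is enough to have `loc` at one point -/
theorem loc_of_one {x₀ : Pts P} (h₀ : (lp x₀).O ≤ q.O)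
    (h : ∀ f ∈ q.O, ∃ a ∈ (lp x₀).O, ∃ c ∈ (lp x₀).O, q.π c ≠ 0 ∧ f * c = a)
    (x : Pts P) (hx : (lp x).O ≤ q.O) (f : F) (hf : f ∈ q.O) :
    ∃ a ∈ (lp x).O, ∃ c ∈ (lp x).O, q.π c ≠ 0 ∧ f * c = a := by
  obtain ⟨a, ha, c, hc, h0, h1⟩ := h f hf
  obtain ⟨a₁, ha₁, c₁, hc₁, h2, h3⟩ := two_pt h₀ hx ha
  obtain ⟨a₂, ha₂, c₂, hc₂, h4, h5⟩ := two_pt h₀ hx hc
  refine ⟨a₁ * c₂, mul_mem ha₁ hc₂, a₂ * c₁, mul_mem ha₂ hc₁, ?_, ?_⟩
  · rw [q.π_mul (hx ha₂) (hx hc₁), ← h5, q.π_mul (h₀ hc) (hx hc₂)]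
    exact mul_ne_zero (mul_ne_zero h0 (un_plc.1 h4)) (un_plc.1 h2)
  · rw [← h3, ← h5, ← h1]
    ring

/-- adapted coordinates from coordinates and an injective choice of indices -/
theorem exists_ad {n : ℕ} (hn : c + d = n) {x : Pts P} (hx : (lp x).O ≤ q.O) {t : Fin n → F}
    (ht : Coords (lp x).O t) {σ : Fin c → Fin n} (hσ : Function.Injective σ)
    (hk : ∀ a ∈ (lp x).O, q.π a = 0 ↔ InI (lp x).O (fun l => t (σ l)) a) :
    ∃ w : Fin d → F, Ad q x (fun l => t (σ l)) w := by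
  classical
  have h1 : Fintype.card {l // l ∉ Set.range σ} = d := by
    have h2 := Fintype.card_subtype_compl (fun l => l ∈ Set.range σ)
    rw [Fintype.card_fin, ← Fintype.card_congr (Equiv.ofInjective σ hσ), Fintype.card_fin] at h2
    omega
  let e : Fin c ⊕ Fin d ≃ Fin n :=
    (Equiv.sumCongr (Equiv.ofInjective σ hσ) (Fintype.equivFinOfCardEq h1).symm).trans
      (Equiv.sumCompl fun l => l ∈ Set.range σ)
  refine ⟨fun m => t (e (Sum.inr m)), hx, ?_, hk⟩
  have h3 := (coI_iff.2 ht).reindex e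
  convert h3 using 1
  funext l
  rcases l with l | l <;> rfl

namespace Ad

variable {x : Pts P} {s : Fin c → F} {w : Fin d → F} (h : Ad q x s w)
include h

theorem s_mem (l : Fin c) : s l ∈ (lp x).O := h.co.mem (Sum.inl l)

theorem w_mem (m : Fin d) : w m ∈ (lp x).O := h.co.mem (Sum.inr m)

theorem s_ne (l : Fin c) : s l ≠ 0 := h.co.ne_zero (Sum.inl l)

theorem ev_s (l : Fin c) : ev (s l) x = 0 := h.co.v_eq (Sum.inl l)

theorem ev_w (m : Fin d) : ev (w m) x = 0 := h.co.v_eq (Sum.inr m)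

theorem π_s (l : Fin c) : q.π (s l) = 0 := (h.ker _ (h.s_mem l)).2 (InI.self l)

theorem π_sum {r : Fin c ⊕ Fin d → F} (hr : ∀ l, r l ∈ (lp x).O) :
    q.π (∑ l, r l * Sum.elim s w l) = ∑ m, q.π (r (Sum.inr m)) * q.π (w m) := by
  rw [Crest.Agent.X277.Strat.Fac.π_sum _ fun l _ => h.le (mul_mem (hr l) (h.co.mem l))]
  simp only [q.π_mul (h.le (hr _)) (h.le (h.co.mem _)), Fintype.sum_sum_type, Sum.elim_inl,
    Sum.elim_inr, h.π_s, mul_zero, Finset.sum_const_zero, zero_add]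

end Ad

theorem SmC.der_mem (h : SmC P q c d) {x : Pts P} (hx : (lp x).O ≤ q.O) {δ : Derivation ℂ F F}
    (hδ : ∀ f ∈ (lp x).O, δ f ∈ (lp x).O) {f : F} (hf : f ∈ q.O) :
    δ f ∈ q.O ∧ ((∀ a ∈ (lp x).O, q.π a = 0 → q.π (δ a) = 0) → q.π f = 0 → q.π (δ f) = 0) := by
  obtain ⟨a, ha, c, hc, h0, h1⟩ := h.loc x hx f hf
  have h2 : δ f = (δ a - f * δ c) / c := by
    rw [← h1, Derivation.leibniz, smul_eq_mul, smul_eq_mul, eq_div_iff (Plc.ne_zero_of_ne h0)]
    ring
  have h3 : δ a - f * δ c ∈ q.O := sub_mem (hx (hδ a ha)) (mul_mem hf (hx (hδ c hc)))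
  refine ⟨h2 ▸ Plc.div_mem h3 h0, fun h4 h5 => ?_⟩
  rw [h2, Plc.π_div h3 h0, Plc.π_sub (hx (hδ a ha)) (mul_mem hf (hx (hδ c hc))),
    q.π_mul hf (hx (hδ c hc)), h5, h4 a ha (by rw [← h1, q.π_mul hf (hx hc), h5, zero_mul])]
  simp

namespace Ad

variable {x : Pts P} {s : Fin c → F} {w : Fin d → F} (h : Ad q x s w)
include h

theorem exists_dual (hq : SmC P q c d) : ∃ δ : Fin d → Derivation ℂ κ κ,
    (∀ m, ∀ f ∈ (lp x).O, ∃ g ∈ (lp x).O, δ m (q.π f) = q.π g) ∧
      ∀ m m', δ m (q.π (w m')) = if m = m' then 1 else 0 := by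
  obtain ⟨δ, h1, h2⟩ := h.co.der
  have h3 : ∀ m, ∀ a ∈ (lp x).O, q.π a = 0 → q.π (δ (Sum.inr m) a) = 0 := by
    intro m a ha h0
    obtain ⟨r, hr, rfl⟩ := (h.ker a ha).1 h0
    rw [map_sum, Crest.Agent.X277.Strat.Fac.π_sum _ fun e _ =>
      h.le (h1 _ _ (mul_mem (hr e) (h.s_mem e)))]
    refine Finset.sum_eq_zero fun e _ => ?_
    have h4 : δ (Sum.inr m) (s e) = 0 := by simpa using h2 (Sum.inr m) (Sum.inl e)
    rw [Derivation.leibniz, h4, smul_zero, zero_add, smul_eq_mul,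
      q.π_mul (h.le (h.s_mem e)) (h.le (h1 _ _ (hr e))), h.π_s, zero_mul]
  choose δ' hδ' using fun m => exists_der hq.surj (δ (Sum.inr m))
    (fun f hf => (hq.der_mem h.le (h1 _) hf).1) fun f hf => (hq.der_mem h.le (h1 _) hf).2 (h3 m)
  refine ⟨δ', fun m f hf => ⟨_, h1 _ f hf, hδ' m f (h.le hf)⟩, fun m m' => ?_⟩
  have h4 : δ (Sum.inr m) (w m') = if m = m' then 1 else 0 := by
    simpa using h2 (Sum.inr m) (Sum.inr m')
  rw [hδ' m _ (h.le (h.w_mem _)), h4]
  split_ifs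
  exacts [Plc.π_one _, Plc.π_zero _]

theorem coordsL (hq : SmC P q c d) {L : LP κ} (hL : OvL q L x) :
    Coords L.O fun m => q.π (w m) where
  van m := van_iff_v.2 ⟨hL.mem _ (h.w_mem _), (hL.ev_eq _ (h.w_mem _)).trans (h.ev_w _)⟩
  gen g hg := by
    obtain ⟨f, hf, rfl⟩ := hL.surj g hg.1
    obtain ⟨r, hr, rfl⟩ := h.co.gen f
      (van_iff_v.2 ⟨hf, (hL.ev_eq f hf).symm.trans (van_iff_v.1 hg).2⟩)
    exact ⟨_, fun m => hL.mem _ (hr _), h.π_sum hr⟩
  der := by
    obtain ⟨δ, h1, h2⟩ := h.exists_dual hq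
    refine ⟨δ, fun m g hg => ?_, h2⟩
    obtain ⟨f, hf, rfl⟩ := hL.surj g hg
    obtain ⟨g, hg', h3⟩ := h1 m f hf
    exact h3 ▸ hL.mem g hg'

/-- the coordinates `w` restrict to coordinates of the centre -/
theorem coords (hq : SmC P q c d) {Z : PModel ℂ κ} {z : Pts Z} (hz : Ov q z x) :
    Coords (lp z).O fun m => q.π (w m) := h.coordsL hq hz.ovL

end Ad

theorem SmC.loc_A (h : SmC P q c d) {i : Fin (P.N + 1)} (hA : P.A i ≤ q.O) {f : F}
    (hf : f ∈ q.O) : ∃ a ∈ P.A i, ∃ c ∈ P.A i, q.π c ≠ 0 ∧ f * c = a := by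
  obtain ⟨x, hx, hle⟩ := exists_pt_le hA
  obtain ⟨a, ha, c, hc, h0, h1⟩ := h.loc x hle f hf
  obtain ⟨a₁, ha₁, c₁, hc₁, h2, h3⟩ := (mem_lp_iff hx).1 ha
  obtain ⟨a₂, ha₂, c₂, hc₂, h4, h5⟩ := (mem_lp_iff hx).1 hc
  refine ⟨a₁ * c₂, mul_mem ha₁ hc₂, a₂ * c₁, mul_mem ha₂ hc₁, ?_, ?_⟩
  · rw [q.π_mul (hA ha₂) (hA hc₁), ← h5, q.π_mul (hle hc) (hA hc₂)]
    exact mul_ne_zero (mul_ne_zero h0 (π_ne hle (un_iff.2 h4))) (π_ne hle (un_iff.2 h2))
  · rw [← h3, ← h5, ← h1]
    ring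

/-- the model of a smooth centre -/
def SmC.modelAt (h : SmC P q c d) {i₀ : Fin (P.N + 1)} (h₀ : P.A i₀ ≤ q.O) : PModel ℂ κ where
  N := P.N
  y := yy q i₀
  y_ne := yy_ne
  frac z := by
    obtain ⟨f, hf, rfl⟩ := h.surj z
    obtain ⟨a, ha, c, hc, h0, h1⟩ := h.loc_A (A_rho_le h₀ 0) hf
    rw [chart_yy h₀]
    exact ⟨_, ⟨⟨a, ha⟩, rfl⟩, _, ⟨⟨c, hc⟩, rfl⟩, h0, eq_div_of_mul_eq h0
      ((q.π_mul hf (A_rho_le h₀ 0 hc)).symm.trans (congrArg q.π h1))⟩
  smooth j := by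
    rw [chart_yy h₀]
    have : Algebra.FiniteType ℂ (psi (A_rho_le h₀ j)).range :=
      Algebra.FiniteType.of_surjective _ (AlgHom.rangeRestrict_surjective _)
    refine smooth_of_coords fun φ => ?_
    obtain ⟨x, -, hx⟩ := exists_ovL _ φ
    obtain ⟨s, w, ha⟩ := h.crd x hx.le
    exact ⟨d, _, lo_eq φ ▸ ha.coordsL h hx⟩

theorem SmC.mdlAt (h : SmC P q c d) {i₀ : Fin (P.N + 1)} (h₀ : P.A i₀ ≤ q.O) :
    Mdl q P (h.modelAt h₀) := by
  refine ⟨fun x' => ?_, fun x hx => ?_, P.y i₀, fun x' x hx i i' hi hi' => ?_⟩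
  · obtain ⟨j, hj⟩ := exists_pat x'
    obtain ⟨φ, hφ⟩ := lpAt_cast (chart_yy h₀ j) (chr j x' hj)
    obtain ⟨x, -, hx⟩ := exists_ovL _ φ
    have h1 : lp x' = lpAt φ := (lp_eq hj).trans hφ.symm
    exact ⟨x, OvL.ov (h1 ▸ hx)⟩
  · obtain ⟨i, hi⟩ := exists_pat x
    obtain ⟨φ, hφ⟩ := exists_chr ((rho_of_pat h₀ hx hi).symm ▸ hi : x ∈ pat P (rho q i₀ i)) hx
    obtain ⟨φ', hφ'⟩ := lpAt_cast (chart_yy h₀ i).symm φ
    obtain ⟨x', hx', h1⟩ := exists_pt (P := h.modelAt h₀) i φ'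
    have h2 : chr (P := h.modelAt h₀) i x' hx' = φ' :=
      AlgHom.ext fun a => (ev_chr hx' a).symm.trans (h1 a)
    have h3 : lp x' = lpAt φ := (lp_eq hx').trans ((congrArg lpAt h2).trans hφ')
    exact ⟨x', OvL.ov (h3 ▸ hφ)⟩
  · have h1 := rho_of_pat h₀ hx.le hi
    have h2 : x' ∈ pat (h.modelAt h₀) i := mem_pat_of_mem fun k => by
      have h4 := π_y_div h₀ i (rho q i₀ k)
      rw [h1] at h4
      exact (h4 ▸ hx.mem _ (y_mem hi _) : yy q i₀ k / yy q i₀ i ∈ _)
    have h3 := un_y h2 hi'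
    change Un _ (yy q i₀ i / _) at h3
    rwa [yy, h1] at h3

theorem SmC.exists_chart (h : SmC P q c d) : ∃ i, P.A i ≤ q.O := by
  obtain ⟨x₀, hx₀⟩ := h.ne
  obtain ⟨i₀, hi₀⟩ := exists_pat x₀
  exact ⟨i₀, (A_le hi₀).trans hx₀⟩

/-- **the smooth centre as a projective model** -/
def SmC.model (h : SmC P q c d) : PModel ℂ κ := h.modelAt h.exists_chart.choose_spec

theorem SmC.mdl (h : SmC P q c d) : Mdl q P h.model := h.mdlAt _

/-- the centre is closed -/
theorem exists_sepZ {i : Fin (P.N + 1)} {x : Pts P} (hx : x ∈ pat P i)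
    (h : ¬ (lp x).O ≤ q.O) : ∃ a ∈ P.A i, ev a x ≠ 0 ∧ (P.A i ≤ q.O → q.π a = 0) := by
  by_cases hA : P.A i ≤ q.O
  · by_contra h1
    refine h (le_of_ker hA hx fun a ha h0 => ?_)
    by_contra h2
    exact h1 ⟨a, ha, h2, fun _ => h0⟩
  · exact ⟨1, one_mem _, by simp [ev], fun h1 => absurd h1 hA⟩

theorem ev_eq_zero {x : Pts P} (hx : (lp x).O ≤ q.O) {a : F} (h : q.π a = 0) : ev a x = 0 := by
  by_contra h0
  exact π_ne hx (un_iff.2 h0) h


end Crest.Agent.X262.Blow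
end
end

-- ▼ part X262/Blow/Loc
section

/-!
# Row 262, BLOW (helper98), part Loc: the local structure of a blow-up

* `chB O s l`   : the chart ring `O[s a / s l]`;
* `Dual O s`    : the family `s` of elements of `O` has dual derivations;
* `Dual.key`    : quasi-regularity; `Dual.exists_ext` : homomorphisms on `chB` with given values;
* `Over L L' s l` : `L'` is a closed point of the chart `l` of the blow-up of `L` in `(s)`;
* `Over.coI`    : coordinates upstairs; `exists_over` : all directions occur.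
-/

set_option autoImplicit false
set_option linter.unusedSectionVars false

noncomputable section

namespace Crest.Agent.X262.Blow

open Crest.Agent.X277.Lef Crest.Agent.X277.Res.Out Crest.Agent.X277.AN.G1
  Crest.Agent.X277.Res.Log Crest.Agent.X277.Strat.Fac MvPolynomial

section Poly

variable {σ R : Type*} [CommRing R]

theorem eval₂_hom_mul {S : Type*} [CommRing S] {p : MvPolynomial σ R} {n : ℕ}
    (hp : p.IsHomogeneous n) (g : R →+* S) (t : S) (u : σ → S) :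
    eval₂ g (fun a => t * u a) p = t ^ n * eval₂ g u p := by
  rw [eval₂_eq, eval₂_eq, Finset.mul_sum]
  refine Finset.sum_congr rfl fun m hm => ?_
  simp only [mul_pow, Finset.prod_mul_distrib, Finset.prod_pow_eq_pow_sum]
  rw [← hp.degree_eq_sum_deg_support hm]
  ring

/-- homogenisation with respect to the variable `l` -/
theorem exists_homog (l : σ) (p : MvPolynomial σ R) :
    ∃ (k : ℕ) (H : MvPolynomial σ R), H.IsHomogeneous k ∧ (X l - 1) ∣ H - p := by
  have h1 : ∀ k : ℕ, (X l - 1 : MvPolynomial σ R) ∣ X l ^ k - 1 := fun k => by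
    simpa using sub_dvd_pow_sub_pow (X l : MvPolynomial σ R) 1 k
  induction p using MvPolynomial.induction_on with
  | C a => exact ⟨0, C a, isHomogeneous_C _ _, by simp⟩
  | add p q hp hq =>
    obtain ⟨k, H, hH, h⟩ := hp
    obtain ⟨k', H', hH', h'⟩ := hq
    refine ⟨k + k', H * X l ^ k' + X l ^ k * H', (hH.mul (isHomogeneous_X_pow _ _)).add
      ((isHomogeneous_X_pow _ _).mul hH'), ?_⟩
    have h2 : H * X l ^ k' + X l ^ k * H' - (p + q) =
        H * (X l ^ k' - 1) + (X l ^ k - 1) * H' + (H - p) + (H' - q) := by ring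
    rw [h2]
    exact dvd_add (dvd_add (dvd_add ((h1 _).mul_left _) ((h1 _).mul_right _)) h) h'
  | mul_X p a hp =>
    obtain ⟨k, H, hH, h⟩ := hp
    exact ⟨k + 1, H * X a, hH.mul (isHomogeneous_X _ _), by rw [← sub_mul]; exact h.mul_right _⟩

theorem eval₂_eq_of_dvd {S : Type*} [CommRing S] {l : σ} {H p : MvPolynomial σ R}
    (h : (X l - 1) ∣ H - p) (g : R →+* S) {ξ : σ → S} (hξ : ξ l = 1) :
    eval₂ g ξ H = eval₂ g ξ p := by
  obtain ⟨r, hr⟩ := h
  have h1 := congrArg (eval₂Hom g ξ) hr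
  rw [map_sub, map_mul, map_sub, eval₂Hom_X', hξ, map_one, sub_self, zero_mul, sub_eq_zero] at h1
  exact h1

end Poly

variable {F K : Type} [Field F] [Algebra ℂ F] [Field K] [Algebra ℂ K]
  {ι : Type} [Fintype ι] [DecidableEq ι] {O W : Subalgebra ℂ F} {s : ι → F} {l : ι}

/-- the chart ring `O[s a / s l]` -/
def chB (O : Subalgebra ℂ F) (s : ι → F) (l : ι) : Subalgebra ℂ F :=
  O ⊔ Algebra.adjoin ℂ (Set.range fun a => s a / s l)

theorem le_chB : O ≤ chB O s l := le_sup_left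

theorem u_mem_chB (a : ι) : s a / s l ∈ chB O s l :=
  (le_sup_right : _ ≤ chB O s l) (Algebra.subset_adjoin ⟨a, rfl⟩)

theorem chB_le (h : O ≤ W) (hu : ∀ a, s a / s l ∈ W) : chB O s l ≤ W :=
  sup_le h (Algebra.adjoin_le (by rintro _ ⟨a, rfl⟩; exact hu a))

theorem chB_mono (h : O ≤ W) : chB O s l ≤ chB W s l := chB_le (h.trans le_chB) u_mem_chB

/-- evaluation of a polynomial over `O` -/
abbrev evO (O : Subalgebra ℂ F) (u : ι → F) : MvPolynomial ι O →+* F := eval₂Hom (algebraMap O F) u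

theorem evO_mem {u : ι → F} (h : O ≤ W) (hu : ∀ a, u a ∈ W) (p : MvPolynomial ι O) :
    evO O u p ∈ W := by
  induction p using MvPolynomial.induction_on with
  | C a => rw [eval₂Hom_C]; exact h a.2
  | add p q hp hq => rw [map_add]; exact add_mem hp hq
  | mul_X p a hp => rw [map_mul, eval₂Hom_X']; exact mul_mem hp (hu a)

theorem exists_evO {b : F} (hb : b ∈ chB O s l) :
    ∃ p : MvPolynomial ι O, evO O (fun a => s a / s l) p = b := by
  let T : Subalgebra ℂ F :=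
    { carrier := {b | ∃ p : MvPolynomial ι O, evO O (fun a => s a / s l) p = b}
      mul_mem' := by
        rintro _ _ ⟨p, rfl⟩ ⟨q, rfl⟩
        exact ⟨p * q, map_mul _ _ _⟩
      add_mem' := by
        rintro _ _ ⟨p, rfl⟩ ⟨q, rfl⟩
        exact ⟨p + q, map_add _ _ _⟩
      algebraMap_mem' := fun c => ⟨C (algebraMap ℂ O c), eval₂Hom_C _ _ _⟩ }
  exact chB_le (W := T) (fun a ha => ⟨C ⟨a, ha⟩, eval₂Hom_C _ _ _⟩)
    (fun a => ⟨X a, eval₂Hom_X' _ _ _⟩) hb

theorem exists_evO_homog (h0 : s l ≠ 0) {b : F} (hb : b ∈ chB O s l) :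
    ∃ (k : ℕ) (H : MvPolynomial ι O), H.IsHomogeneous k ∧ evO O (fun a => s a / s l) H = b := by
  obtain ⟨p, rfl⟩ := exists_evO hb
  obtain ⟨k, H, hH, h⟩ := exists_homog l p
  exact ⟨k, H, hH, eval₂_eq_of_dvd h _ (div_self h0)⟩

theorem evO_s (h0 : s l ≠ 0) {k : ℕ} {H : MvPolynomial ι O} (hH : H.IsHomogeneous k) :
    evO O s H = s l ^ k * evO O (fun a => s a / s l) H := by
  rw [coe_eval₂Hom, coe_eval₂Hom, ← eval₂_hom_mul hH]
  simp only [mul_div_cancel₀ _ h0]

/-- a place applied to a polynomial expression -/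
theorem π_evO {p : Plc F K} (h : O ≤ p.O) {u : ι → F} (hu : ∀ a, u a ∈ p.O)
    (H : MvPolynomial ι O) : p.π (evO O u H) =
      eval₂ (p.hom.comp (Subalgebra.inclusion h) : O →+* K) (fun a => p.π (u a)) H := by
  induction H using MvPolynomial.induction_on with
  | C a => rw [eval₂Hom_C, eval₂_C]; rfl
  | add H H' h1 h2 => rw [map_add, p.π_add (evO_mem h hu _) (evO_mem h hu _), h1, h2, eval₂_add]
  | mul_X H a h1 =>
    rw [map_mul, eval₂Hom_X', p.π_mul (evO_mem h hu _) (hu a), h1, eval₂_mul, eval₂_X]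

theorem v_evO {L : LP F} (h : O ≤ L.O) {u : ι → F} (hu : ∀ a, u a ∈ L.O)
    (H : MvPolynomial ι O) : L.v (evO O u H) =
      eval₂ (L.hom.comp (Subalgebra.inclusion h) : O →+* ℂ) (fun a => L.v (u a)) H := by
  induction H using MvPolynomial.induction_on with
  | C a => rw [eval₂Hom_C, eval₂_C]; rfl
  | add H H' h1 h2 => rw [map_add, L.v_add (evO_mem h hu _) (evO_mem h hu _), h1, h2, eval₂_add]
  | mul_X H a h1 =>
    rw [map_mul, eval₂Hom_X', L.v_mul (evO_mem h hu _) (hu a), h1, eval₂_mul, eval₂_X]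

/-- the family `s` of elements of `O` has dual derivations -/
structure Dual (O : Subalgebra ℂ F) (s : ι → F) : Prop where
  mem : ∀ a, s a ∈ O
  der : ∃ d : ι → Derivation ℂ F F, (∀ a, ∀ x ∈ O, d a x ∈ O) ∧
    ∀ a b, d a (s b) = if a = b then 1 else 0

namespace Dual

variable (h : Dual O s)
include h

/-- the members as elements of `O` -/
def el (a : ι) : O := ⟨s a, h.mem a⟩

theorem ne_zero (a : ι) : s a ≠ 0 := by
  obtain ⟨d, -, hd⟩ := h.der
  intro h0
  have h1 := hd a a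
  rw [h0, map_zero, if_pos rfl] at h1
  exact zero_ne_one h1

theorem coe_eval (H : MvPolynomial ι O) : (eval h.el H : F) = evO O s H :=
  (map_eval₂Hom (RingHom.id O) h.el (algebraMap O F) H).trans rfl

/-- initial forms -/
theorem map_eq_zero (ψ : O →ₐ[ℂ] K) (hψ : ∀ a, ψ (h.el a) = 0) {k : ℕ} {H : MvPolynomial ι O}
    (hH : H.IsHomogeneous k) (hm : eval h.el H ∈ Ideal.span (Set.range h.el) ^ (k + 1)) :
    map (ψ : O →+* K) H = 0 := by
  obtain ⟨d, hd, hd'⟩ := h.der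
  have h1 : (RingHom.ker (ψ : O →+* K)).IsPrime := RingHom.ker_isPrime _
  have : Nontrivial (O ⧸ RingHom.ker (ψ : O →+* K)) := Ideal.Quotient.nontrivial_iff.2 h1.ne_top
  have : CharZero (O ⧸ RingHom.ker (ψ : O →+* K)) :=
    charZero_of_injective_algebraMap (algebraMap ℂ _).injective
  have h2 := Crest.Agent.X277.Res.P0.map_eq_zero_of_mem (RingHom.ker (ψ : O →+* K)) ⊥ h.el
    (fun a => resDer O (d a) (hd a)) (fun a b => Subtype.ext (by
      rw [coe_resDer]
      change d a (s b) = _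
      rw [hd']
      split_ifs <;> rfl)) (fun a f hf => by rw [Ideal.mem_bot.1 hf, map_zero]; exact zero_mem _)
    bot_le (Ideal.span_le.2 (by rintro _ ⟨a, rfl⟩; exact hψ a)) k H hH (Ideal.mem_sup_right hm)
  ext m
  have h3 := congrArg (coeff m) h2
  rw [coeff_map, coeff_zero, Ideal.Quotient.eq_zero_iff_mem] at h3
  rw [coeff_map, coeff_zero]
  exact h3

/-- **quasi-regularity** -/
theorem key (ψ : O →ₐ[ℂ] K) (hψ : ∀ a, ψ (h.el a) = 0) {k : ℕ} {H : MvPolynomial ι O}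
    (hH : H.IsHomogeneous k) (hb : evO O (fun a => s a / s l) H / s l ∈ chB O s l) :
    map (ψ : O →+* K) H = 0 := by
  have h0 := h.ne_zero l
  obtain ⟨k', H', hH', h1⟩ := exists_evO_homog h0 hb
  have h2 : eval h.el (H * X l ^ k') = h.el l ^ (k + 1) * eval h.el H' := by
    apply Subtype.ext
    rw [h.coe_eval, MulMemClass.coe_mul, h.coe_eval, map_mul, map_pow, eval₂Hom_X', evO_s h0 hH,
      evO_s h0 hH', h1]
    change _ = s l ^ (k + 1) * _
    field_simp
    ring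
  have h3 := h.map_eq_zero ψ hψ (hH.mul (isHomogeneous_X_pow l k')) (by
    rw [h2, show k + k' + 1 = (k + 1) + k' by ring, pow_add]
    exact Ideal.mul_mem_mul (Ideal.pow_mem_pow (Ideal.subset_span (Set.mem_range_self l)) _)
      ((Ideal.mem_span_pow_iff_exists_isHomogeneous _ _).2 ⟨H', hH', rfl⟩))
  rw [map_mul, map_pow, map_X] at h3
  exact (mul_eq_zero.1 h3).resolve_right (pow_ne_zero _ (X_ne_zero _))

/-- homomorphisms on the chart ring with prescribed values -/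
theorem exists_ext (ψ : O →ₐ[ℂ] K) (hψ : ∀ a, ψ (h.el a) = 0) {ξ : ι → K} (hξ : ξ l = 1) :
    ∃ Ψ : chB O s l →ₐ[ℂ] K, (∀ a : O, Ψ ⟨a, le_chB a.2⟩ = ψ a) ∧
      ∀ a, Ψ ⟨_, u_mem_chB a⟩ = ξ a := by
  let e : MvPolynomial ι O →+* chB O s l :=
    (evO O fun a => s a / s l).codRestrict _ (evO_mem le_chB u_mem_chB)
  have he : Function.Surjective e := fun b => by
    obtain ⟨p, hp⟩ := exists_evO b.2
    exact ⟨p, Subtype.ext hp⟩
  have hk : RingHom.ker e ≤ RingHom.ker (eval₂Hom (ψ : O →+* K) ξ) := by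
    intro p hp
    have h1 : evO O (fun a => s a / s l) p = 0 := congrArg Subtype.val hp
    obtain ⟨k, H, hH, h2⟩ := exists_homog l p
    have h3 := h.key (l := l) ψ hψ hH (by
      rw [coe_eval₂Hom, eval₂_eq_of_dvd h2 _ (div_self (h.ne_zero l)), ← coe_eval₂Hom, h1,
        zero_div]
      exact zero_mem _)
    rw [RingHom.mem_ker, coe_eval₂Hom, ← eval₂_eq_of_dvd h2 _ hξ, ← eval_map, h3, map_zero]
  let g := RingHom.liftOfSurjective e he ⟨_, hk⟩
  have hg : ∀ p, g (e p) = eval₂Hom (ψ : O →+* K) ξ p := fun p =>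
    RingHom.liftOfSurjective_comp_apply _ _ _ p
  have h1 : ∀ a : O, g ⟨a, le_chB a.2⟩ = ψ a := fun a => by
    have h2 : e (C a) = ⟨a, le_chB a.2⟩ := Subtype.ext (eval₂Hom_C _ _ _)
    rw [← h2, hg, eval₂Hom_C]
    rfl
  refine ⟨{ g with commutes' := fun c => (h1 (algebraMap ℂ O c)).trans (ψ.commutes c) }, h1,
    fun a => ?_⟩
  have h2 : e (X a) = ⟨_, u_mem_chB a⟩ := Subtype.ext (eval₂Hom_X' _ _ _)
  change g _ = _
  rw [← h2, hg, eval₂Hom_X']

end Dual

theorem CoI.dual {ι' : Type} [Fintype ι'] [DecidableEq ι'] {w : ι' → F}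
    (h : CoI O (Sum.elim s w)) : Dual O s where
  mem a := h.mem (Sum.inl a)
  der := by
    obtain ⟨d, h1, h2⟩ := h.der
    exact ⟨fun a => d (Sum.inl a), fun a => h1 _, fun a b => by
      simpa using h2 (Sum.inl a) (Sum.inl b)⟩

/-- `L'` is a closed point of the chart `l` of the blow-up of `L` in the ideal `(s)` -/
structure Over (L L' : LP F) (s : ι → F) (l : ι) : Prop where
  dom : L.Dom L'
  mem : ∀ a, s a / s l ∈ L'.O
  loc : ∀ f ∈ L'.O, ∃ a ∈ chB L.O s l, ∃ b ∈ chB L.O s l, L'.v b ≠ 0 ∧ f * b = a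

variable {L L' : LP F}

theorem Over.le (h : Over L L' s l) : chB L.O s l ≤ L'.O := chB_le h.dom.le h.mem

/-- every direction occurs -/
theorem exists_over (hs : Dual L.O s) (h0 : ∀ a, L.v (s a) = 0) {ξ : ι → ℂ} (hξ : ξ l = 1) :
    ∃ L' : LP F, Over L L' s l ∧ ∀ a, L'.v (s a / s l) = ξ a := by
  obtain ⟨Ψ, h1, h2⟩ := hs.exists_ext L.hom h0 hξ
  refine ⟨lpAt Ψ, ⟨⟨le_chB.trans (le_lpAt Ψ), fun f hf => ?_⟩,
    fun a => le_lpAt Ψ (u_mem_chB a), ?_⟩, fun a => (lpAt_v Ψ ⟨_, u_mem_chB a⟩).trans (h2 a)⟩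
  · exact (lpAt_v Ψ ⟨f, le_chB hf⟩).trans (h1 ⟨f, hf⟩)
  · rintro f ⟨a, b, hb, h3⟩
    exact ⟨a, a.2, b, b.2, by rwa [lpAt_v], h3⟩

/-- a local ring which dominates `L` and has the same direction dominates `L'` -/
theorem Over.dom_of (h : Over L L' s l) {L'' : LP F} (hd : L.Dom L'') (hm : ∀ a, s a / s l ∈ L''.O)
    (hv : ∀ a, L''.v (s a / s l) = L'.v (s a / s l)) : L'.Dom L'' := by
  have h1 : ∀ b ∈ chB L.O s l, L''.v b = L'.v b := by
    intro b hb
    obtain ⟨p, rfl⟩ := exists_evO hb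
    rw [v_evO hd.le hm, v_evO h.dom.le h.mem, funext hv]
    congr 1
    exact RingHom.ext fun a => (hd.eq a a.2).trans (h.dom.eq a a.2).symm
  have h2 : ∀ f ∈ L'.O, f ∈ L''.O ∧ L''.v f = L'.v f := by
    intro f hf
    obtain ⟨a, ha, b, hb, h0, h3⟩ := h.loc f hf
    have h4 : f = a / b := by rw [← h3, mul_div_cancel_right₀ _ (LP.ne_zero_of_ne h0)]
    have h5 : L''.v b ≠ 0 := by rwa [h1 b hb]
    exact ⟨h4 ▸ LP.div_mem (chB_le hd.le hm ha) h5, by
      rw [h4, LP.v_div (chB_le hd.le hm ha) h5, LP.v_div (h.le ha) h0, h1 a ha, h1 b hb]⟩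
  exact ⟨fun f hf => (h2 f hf).1, fun f hf => (h2 f hf).2⟩

/-- the point is determined by the direction -/
theorem Over.unique (h : Over L L' s l) {L'' : LP F} (h' : Over L L'' s l)
    (hv : ∀ a, L''.v (s a / s l) = L'.v (s a / s l)) : L' = L'' :=
  LP.ext' (h.dom_of h'.dom h'.mem hv) (h'.dom_of h.dom h.mem fun a => (hv a).symm).le

/-- change of the chart -/
theorem Over.change (h : Over L L' s l) (h0 : s l ≠ 0) {l' : ι} (hl : L'.v (s l' / s l) ≠ 0) :
    Over L L' s l' := by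
  have h0' : s l' ≠ 0 := fun h1 => hl (by rw [h1, zero_div, LP.v_zero])
  have h1 : ∀ a, s a / s l' = (s a / s l) / (s l' / s l) := fun a => by field_simp
  have h2 : ∀ a, s a / s l' ∈ L'.O := fun a => h1 a ▸ LP.div_mem (h.mem a) hl
  have h3 : L'.v (s l / s l') ≠ 0 := by
    rw [← inv_div, LP.v_inv hl]
    exact inv_ne_zero hl
  have h4 : ∀ b ∈ chB L.O s l, ∃ k : ℕ, b * (s l / s l') ^ k ∈ chB L.O s l' := by
    intro b hb
    obtain ⟨k, H, hH, rfl⟩ := exists_evO_homog h0 hb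
    refine ⟨k, ?_⟩
    have h5 : evO L.O (fun a => s a / s l) H * (s l / s l') ^ k =
        evO L.O (fun a => s a / s l') H := by
      have h6 := (evO_s h0 hH).symm.trans (evO_s h0' hH)
      rw [div_pow, ← mul_div_assoc, mul_comm, h6, mul_div_cancel_left₀ _ (pow_ne_zero _ h0')]
    exact h5 ▸ evO_mem le_chB u_mem_chB H
  refine ⟨h.dom, h2, fun f hf => ?_⟩
  obtain ⟨a, ha, b, hb, h5, h6⟩ := h.loc f hf
  obtain ⟨k, hk⟩ := h4 a ha
  obtain ⟨k', hk'⟩ := h4 b hb
  refine ⟨_, mul_mem hk (pow_mem (u_mem_chB l) k'), _, mul_mem hk' (pow_mem (u_mem_chB l) k),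
    ?_, by rw [← h6]; ring⟩
  rw [L'.v_mul (mul_mem (h.le hb) (pow_mem (h2 l) _)) (pow_mem (h2 l) _),
    L'.v_mul (h.le hb) (pow_mem (h2 l) _), LP.v_pow (h2 l), LP.v_pow (h2 l)]
  exact mul_ne_zero (mul_ne_zero h5 (pow_ne_zero _ h3)) (pow_ne_zero _ h3)

/-- a derivation which is regular on generators is regular -/
theorem Over.der_mem (h : Over L L' s l) {δ : Derivation ℂ F F} (h1 : ∀ f ∈ L.O, δ f ∈ L'.O)
    (h2 : ∀ a, δ (s a / s l) ∈ L'.O) {f : F} (hf : f ∈ L'.O) : δ f ∈ L'.O := by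
  have h3 : ∀ b ∈ chB L.O s l, δ b ∈ L'.O := by
    intro b hb
    obtain ⟨p, rfl⟩ := exists_evO hb
    clear hb
    induction p using MvPolynomial.induction_on with
    | C a => rw [eval₂Hom_C]; exact h1 a a.2
    | add p q hp hq => rw [map_add, map_add]; exact add_mem hp hq
    | mul_X p a hp =>
      rw [map_mul, eval₂Hom_X', Derivation.leibniz, smul_eq_mul, smul_eq_mul]
      exact add_mem (mul_mem (evO_mem h.dom.le h.mem p) (h2 a)) (mul_mem (h.mem a) hp)
  obtain ⟨a, ha, b, hb, h0, h4⟩ := h.loc f hf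
  have h5 : δ f = (δ a - f * δ b) / b := by
    rw [← h4, Derivation.leibniz, smul_eq_mul, smul_eq_mul, eq_div_iff (LP.ne_zero_of_ne h0)]
    ring
  exact h5 ▸ LP.div_mem (sub_mem (h3 a ha) (mul_mem hf (h3 b hb))) h0

/-- the new coordinates -/
def bs (L' : LP F) (s : ι → F) (l a : ι) : F :=
  if a = l then s l else s a / s l - algebraMap ℂ F (L'.v (s a / s l))

theorem bs_self : bs L' s l l = s l := if_pos rfl

theorem bs_ne {a : ι} (h : a ≠ l) :
    bs L' s l a = s a / s l - algebraMap ℂ F (L'.v (s a / s l)) := if_neg h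

/-- **coordinates on the blow-up** -/
theorem Over.coI {ι' : Type} [Fintype ι'] [DecidableEq ι'] {w : ι' → F} (h : Over L L' s l)
    (hc : CoI L.O (Sum.elim s w)) : CoI L'.O (Sum.elim (bs L' s l) w) := by
  have h0 : s l ≠ 0 := hc.dual.ne_zero l
  have hvan : ∀ j, Van L'.O (Sum.elim (bs L' s l) w j) := by
    have h1 : ∀ j, Van L'.O (Sum.elim s w j) := fun j =>
      van_iff_v.2 ⟨h.dom.le (hc.mem j), (h.dom.eq _ (hc.mem j)).trans (hc.v_eq j)⟩
    rintro (a | b)
    · rw [Sum.elim_inl]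
      by_cases ha : a = l
      · rw [ha, bs_self]; exact h1 (Sum.inl l)
      · rw [bs_ne ha]
        exact van_iff_v.2 ⟨sub_mem (h.mem a) (algebraMap_mem _ _), by
          rw [LP.v_sub (h.mem a) (algebraMap_mem _ _), L'.v_alg, sub_self]⟩
    · exact h1 (Sum.inr b)
  refine ⟨hvan, fun f hf => ?_, ?_⟩
  · have h1 : ∀ b ∈ chB L.O s l,
        InI L'.O (Sum.elim (bs L' s l) w) (b - algebraMap ℂ F (L'.v b)) := by
      intro b hb
      obtain ⟨p, rfl⟩ := exists_evO hb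
      clear hb
      induction p using MvPolynomial.induction_on with
      | C a =>
        rw [eval₂Hom_C]
        change InI _ _ ((a : F) - algebraMap ℂ F (L'.v a))
        rw [h.dom.eq a a.2]
        refine ((hc.gen _ (van_iff_v.2 ⟨sub_mem a.2 (algebraMap_mem _ _), by
          rw [LP.v_sub a.2 (algebraMap_mem _ _), L.v_alg, sub_self]⟩)).mono h.dom.le).trans ?_
        rintro (a | b)
        · have h2 := (InI.self (O := L'.O) (s := Sum.elim (bs L' s l) w) (Sum.inl l)).mul_left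
            (h.mem a)
          rwa [Sum.elim_inl, bs_self, div_mul_cancel₀ _ h0] at h2
        · exact InI.self (O := L'.O) (s := Sum.elim (bs L' s l) w) (Sum.inr b)
      | add p q hp hq =>
        rw [map_add, L'.v_add (evO_mem h.dom.le h.mem p) (evO_mem h.dom.le h.mem q), map_add,
          add_sub_add_comm]
        exact hp.add hq
      | mul_X p a hp =>
        have h2 : InI L'.O (Sum.elim (bs L' s l) w)
            (s a / s l - algebraMap ℂ F (L'.v (s a / s l))) := by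
          by_cases ha : a = l
          · rw [ha, div_self h0, LP.v_one, map_one, sub_self]; exact InI.zero
          · rw [← bs_ne ha]; exact InI.self (s := Sum.elim (bs L' s l) w) (Sum.inl a)
        rw [map_mul, eval₂Hom_X', L'.v_mul (evO_mem h.dom.le h.mem p) (h.mem a), map_mul]
        have h3 := (hp.mul_right (h.mem a)).add (h2.mul_left
          (algebraMap_mem L'.O (L'.v (evO L.O (fun a => s a / s l) p))))
        convert h3 using 1
        ring
    obtain ⟨hf1, hf2⟩ := van_iff_v.1 hf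
    obtain ⟨a, ha, b, hb, h2, h3⟩ := h.loc f hf1
    have h4 := h1 a ha
    rw [← h3, L'.v_mul hf1 (h.le hb), hf2, zero_mul, map_zero, sub_zero] at h4
    have h5 := h4.mul_right (L'.inv_mem h2)
    rwa [mul_inv_cancel_right₀ (LP.ne_zero_of_ne h2)] at h5
  · obtain ⟨d, hd, hd'⟩ := hc.der
    have hs : ∀ j a, d j (s a) = if j = Sum.inl a then 1 else 0 := fun j a => hd' j (Sum.inl a)
    have hw : ∀ j b, d j (w b) = if j = Sum.inr b then 1 else 0 := fun j b => hd' j (Sum.inr b)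
    have hu : ∀ (δ : Derivation ℂ F F) a, δ (s a / s l) = (δ (s a) - s a / s l * δ (s l)) / s l := by
      intro δ a
      rw [Derivation.leibniz_div]
      simp only [smul_eq_mul]
      field_simp
    let E : Derivation ℂ F F := ∑ a, (s a / s l) • d (Sum.inl a)
    have hE : ∀ f, E f = ∑ a, s a / s l * d (Sum.inl a) f := fun f => by
      have h1 := congrFun (map_sum (Derivation.coeFnAddMonoidHom (R := ℂ) (A := F) (M := F))
        (fun a => (s a / s l) • d (Sum.inl a)) Finset.univ) f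
      rw [Finset.sum_apply] at h1
      exact h1
    have hEs : ∀ a, E (s a) = s a / s l := fun a => by simp [hE, hs]
    have hEu : ∀ a, E (s a / s l) = 0 := fun a => by
      rw [hu, hEs, hEs, div_self h0, mul_one, sub_self, zero_div]
    have hau : ∀ a, a ≠ l → ∀ a', (s l • d (Sum.inl a)) (s a' / s l) = if a = a' then 1 else 0 := by
      intro a ha a'
      rw [Derivation.smul_apply, hu, hs, hs, smul_eq_mul, mul_div_cancel₀ _ h0]
      simp [ha]
    have hbu : ∀ b a', d (Sum.inr b) (s a' / s l) = 0 := fun b a' => by simp [hu, hs]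
    refine ⟨Sum.elim (fun a => if a = l then E else s l • d (Sum.inl a)) fun b => d (Sum.inr b),
      ?_, ?_⟩
    · rintro (a | b) f hf
      · rw [Sum.elim_inl]
        split_ifs with ha
        · refine h.der_mem (fun f hf => ?_) (fun a' => hEu a' ▸ zero_mem _) hf
          rw [hE]
          exact sum_mem fun a' _ => mul_mem (h.mem a') (h.dom.le (hd _ f hf))
        · refine h.der_mem (fun f hf => h.dom.le (mul_mem (hc.mem (Sum.inl l)) (hd _ f hf)))
            (fun a' => ?_) hf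
          rw [hau a ha]
          split_ifs
          exacts [one_mem _, zero_mem _]
      · exact h.der_mem (fun f hf => h.dom.le (hd _ f hf)) (fun a' => hbu b a' ▸ zero_mem _) hf
    · rintro (a | b) (a' | b')
      · simp only [Sum.elim_inl, Sum.inl.injEq]
        by_cases ha' : a' = l
        · rw [ha', bs_self]
          split_ifs with ha
          · rw [hEs, div_self h0]
          · simp [hs, ha]
        · rw [bs_ne ha', map_sub, Derivation.map_algebraMap, sub_zero]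
          by_cases ha : a = l
          · rw [if_pos ha, hEu, if_neg (fun h1 : a = a' => ha' (h1 ▸ ha))]
          · rw [if_neg ha, hau a ha]
      · simp only [Sum.elim_inl, Sum.elim_inr]
        split_ifs with ha h1 h1
        · cases h1
        · simp [hE, hw]
        · cases h1
        · simp [hw]
      · simp only [Sum.elim_inl, Sum.elim_inr]
        rw [if_neg (by simp)]
        by_cases ha' : a' = l
        · rw [ha', bs_self, hs, if_neg (by simp)]
        · rw [bs_ne ha', map_sub, Derivation.map_algebraMap, sub_zero, hbu]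
      · exact hw _ _

/-- a form with a nonzero reduction is not divisible by the equation of the exceptional divisor -/
theorem Over.notMem (h : Over L L' s l) (hs : Dual L.O s) (ψ : L.O →ₐ[ℂ] K)
    (hψ : ∀ a, ψ (hs.el a) = 0) (hker : ∀ a, ψ a = 0 → L.v a = 0) {k : ℕ}
    {H : MvPolynomial ι L.O} (hH : H.IsHomogeneous k) (hne : map (ψ : L.O →+* K) H ≠ 0) :
    evO L.O (fun a => s a / s l) H / s l ∉ L'.O := by
  intro hm
  obtain ⟨a, ha, b, hb, h0, h1⟩ := h.loc _ hm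
  obtain ⟨k', H', hH', rfl⟩ := exists_evO_homog (hs.ne_zero l) hb
  have h2 := hs.key (l := l) ψ hψ (hH.mul hH') (by
    rw [map_mul, mul_div_right_comm, h1]; exact ha)
  rw [map_mul] at h2
  have h3 := (mul_eq_zero.1 h2).resolve_left hne
  apply h0
  rw [v_evO h.dom.le h.mem, ← eval_map]
  have h4 : map (L'.hom.comp (Subalgebra.inclusion h.dom.le) : L.O →+* ℂ) H' = 0 := by
    ext m
    have h5 := congrArg (coeff m) h3
    rw [coeff_map, coeff_zero] at h5
    rw [coeff_map, coeff_zero]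
    exact (h.dom.eq _ (coeff m H').2).trans (hker _ h5)
  rw [h4, map_zero]

end Crest.Agent.X262.Blow
end
end

-- ▼ part X262/Blow/Mod

/-!
# Row 262, BLOW (helper98), part Mod: the blow-up of a smooth centre as a projective model

* `Gens P q`     : sections `f j` of `O(m)` which generate the ideal sheaf of the centre, twisted;
* `SmC.exists_gens` : they exist;
* `G.bl h`, `G.r h` : the blow-up (coordinates `y i * f j`) and the morphism to `P`;
* `G.lp_off`, `G.exists_off`, `G.over`, `G.exists_on` : the points of the blow-up.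
-/

set_option autoImplicit false
set_option linter.unusedSectionVars false

open scoped KaehlerDifferential

noncomputable section

namespace Crest.Agent.X262.Blow

open Crest.Agent.X277.Lef Crest.Agent.X277.Res.Out Crest.Agent.X277.AN.G1
  Crest.Agent.X277.Res.Log Crest.Agent.X277.Strat.Fac

variable {F κ : Type} [Field F] [Field κ] [Algebra ℂ F] [Algebra ℂ κ] {P : PModel ℂ F}
  {q : Plc F κ} {c d : ℕ}

/-! ### coordinates at all points -/

theorem exists_coords_of_basis {n : ℕ} (b : Module.Basis (Fin n) F Ω[F⁄ℂ]) (x : Pts P) :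
    ∃ t : Fin n → F, Coords (lp x).O t := by
  obtain ⟨z, hz⟩ := exists_crd b x
  have h1 : ∀ l, z l - algebraMap ℂ F (ev (z l) x) ∈ (lp x).O := fun l =>
    sub_mem (hz.mem l) (algebraMap_mem _ _)
  have h2 : ∀ l, ev (z l - algebraMap ℂ F (ev (z l) x)) x = 0 := fun l => by
    rw [ev, LP.v_sub (hz.mem l) (algebraMap_mem _ _), LP.v_alg, ← ev, sub_self]
  refine ⟨_, coords_of_crd b ⟨h1, fun f hf => ?_⟩ h2⟩
  obtain ⟨c, hc, h3⟩ := hz.gen f hf
  refine ⟨c, hc, h3.trans ?_⟩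
  simp only [show ∀ l, (lp x).v (z l - algebraMap ℂ F (ev (z l) x)) = 0 from h2, map_zero, sub_zero]

theorem basis_of_coords {n : ℕ} {x : Pts P} {t : Fin n → F} (ht : Coords (lp x).O t) :
    Nonempty (Module.Basis (Fin n) F Ω[F⁄ℂ]) :=
  ⟨Module.Basis.mk (linearIndependent_D ht) (span_D (crd_of_coords ht)).ge⟩

theorem SmC.exists_basis (h : SmC P q c d) : Nonempty (Module.Basis (Fin (c + d)) F Ω[F⁄ℂ]) := by
  obtain ⟨x, hx⟩ := h.ne
  obtain ⟨s, w, ha⟩ := h.crd x hx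
  exact basis_of_coords (ha.co.coords finSumFinEquiv.symm)

theorem SmC.exists_basis' (h : SmC P q c d) : Nonempty (Module.Basis (Fin d) κ Ω[κ⁄ℂ]) := by
  obtain ⟨x, hx⟩ := h.ne
  obtain ⟨s, w, ha⟩ := h.crd x hx
  obtain ⟨z, hz⟩ := h.mdl.down x hx
  exact basis_of_coords (ha.coords h hz)

/-! ### localisations -/

section Of

variable {L L' : LP F} {B B' : Subalgebra ℂ F}

/-- the restriction of the value -/
def resV (h : B ≤ L.O) : B →ₐ[ℂ] ℂ := L.hom.comp (Subalgebra.inclusion h)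

theorem dom_resV (h : B ≤ L.O) : (lpAt (resV h)).Dom L := lpAt_dom _ h fun _ => rfl

theorem div_mem_resV (h : B ≤ L.O) {a b : F} (ha : a ∈ B) (hb : b ∈ B) (h0 : L.v b ≠ 0) :
    a / b ∈ (lpAt (resV h)).O :=
  ⟨⟨a, ha⟩, ⟨b, hb⟩, h0, div_mul_cancel₀ _ (LP.ne_zero_of_ne h0)⟩

theorem eq_of_of (h : L'.Of B) (hd : L.Dom L') (hB : B ≤ L.O) : L = L' := by
  refine LP.ext' hd fun f hf => ?_
  obtain ⟨a, ha, b, hb, h0, h1⟩ := h.loc f hf
  rw [← mul_div_cancel_right₀ f (LP.ne_zero_of_ne h0), h1]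
  exact LP.div_mem (hB ha) (by rwa [← hd.eq b (hB hb)])

theorem of_of_le (h : L.Of B') (hB : B ≤ L.O) (h' : B' ≤ (lpAt (resV hB)).O) : L.Of B :=
  eq_of_of h (dom_resV hB) h' ▸ LP.of_lpAt _

end Of

theorem Over.of {ι : Type} [Fintype ι] [DecidableEq ι] {L L' : LP F} {s : ι → F} {l : ι}
    (h : Over L L' s l) : L'.Of (chB L.O s l) := ⟨h.le, h.loc⟩

/-! ### generators of the ideal sheaf -/

/-- sections of `O(m)` which generate the twisted ideal sheaf of the centre -/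
structure Gens (P : PModel ℂ F) (q : Plc F κ) where
  /-- the number of sections, minus one -/
  M : ℕ
  /-- the twist -/
  m : ℕ
  /-- the sections -/
  f : Fin (M + 1) → F
  ne : ∀ j, f j ≠ 0
  mem : ∀ j i, f j / P.y i ^ m ∈ P.A i
  van : ∀ j i, P.A i ≤ q.O → q.π (f j / P.y i ^ m) = 0
  gen : ∀ i, ∀ x ∈ pat P i, ∀ a ∈ (lp x).O, ((lp x).O ≤ q.O → q.π a = 0) →
    InI (lp x).O (fun j => f j / P.y i ^ m) a

theorem A_le_of_ne {i i' : Fin (P.N + 1)} (h : P.A i' ≤ q.O) (h0 : q.π (P.y i / P.y i') ≠ 0) :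
    P.A i ≤ q.O := by
  refine Algebra.adjoin_le ?_
  rintro _ ⟨j, rfl⟩
  change P.y j / P.y i ∈ q.O
  rw [y_div i' i j]
  exact Plc.div_mem (h (div_mem_chart P.y i' j)) h0

/-- the ideal of the centre in a chart -/
def chI (q : Plc F κ) (i : Fin (P.N + 1)) : Ideal (P.A i) where
  carrier := {a | P.A i ≤ q.O → q.π a = 0}
  add_mem' {a b} ha hb h := by
    rw [AddMemClass.coe_add, q.π_add (h a.2) (h b.2), ha h, hb h, add_zero]
  zero_mem' _ := q.π_zero
  smul_mem' a b hb h := by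
    rw [smul_eq_mul, MulMemClass.coe_mul, q.π_mul (h a.2) (h b.2), hb h, mul_zero]

theorem SmC.exists_gens (h : SmC P q c d) (hc : 0 < c) : Nonempty (Gens P q) := by
  classical
  choose S hS using fun i => IsNoetherian.noetherian (chI (P := P) q i)
  have h1 : ∀ i i', ∀ g : P.A i, ∃ e : ℕ, (P.y i / P.y i') ^ e * g ∈ P.A i' :=
    fun i i' g => P.exists_pow_mul_mem i' i g.2
  choose e he using h1
  set m := (Finset.univ.sup fun i => Finset.univ.sup fun i' => (S i).sup (e i i')) + 1 with hm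
  have hlt : ∀ i i', ∀ g ∈ S i, e i i' g < m := fun i i' g hg => Nat.lt_succ_of_le
    (le_trans (le_trans (Finset.le_sup (f := e i i') hg)
      (Finset.le_sup (f := fun i' => (S i).sup (e i i')) (Finset.mem_univ i')))
      (Finset.le_sup (f := fun i => Finset.univ.sup fun i' => (S i).sup (e i i'))
        (Finset.mem_univ i)))
  let T : Finset F := (Finset.univ.biUnion fun i => (S i).image fun g : P.A i =>
    (g : F) * P.y i ^ m).erase 0
  have hT : ∀ {a}, a ∈ T ↔ a ≠ 0 ∧ ∃ i, ∃ g ∈ S i, (g : F) * P.y i ^ m = a := by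
    intro a
    simp [T]
  have hgen : ∀ i, ∀ a ∈ chI (P := P) q i,
      InI (P.A i) (fun j : T => (j : F) / P.y i ^ m) (a : F) := by
    intro i a ha
    rw [← hS i] at ha
    induction ha using Submodule.span_induction with
    | mem g hg =>
      by_cases h0 : (g : F) = 0
      · rw [h0]; exact InI.zero
      · have h2 := InI.self (O := P.A i) (s := fun j : T => (j : F) / P.y i ^ m)
          ⟨_, hT.2 ⟨mul_ne_zero h0 (pow_ne_zero _ (P.y_ne i)), i, g, hg, rfl⟩⟩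
        rwa [mul_div_cancel_right₀ _ (pow_ne_zero _ (P.y_ne i))] at h2
    | zero => exact InI.zero
    | add a b _ _ h2 h3 => exact h2.add h3
    | smul a b _ h2 => exact h2.mul_left a.2
  have hloc : ∀ i, ∀ x ∈ pat P i, ∀ a ∈ (lp x).O, ((lp x).O ≤ q.O → q.π a = 0) →
      InI (lp x).O (fun j : T => (j : F) / P.y i ^ m) a := by
    intro i x hx a ha h0
    by_cases hZ : (lp x).O ≤ q.O
    · obtain ⟨a', ha', b, hb, h2, h3⟩ := (mem_lp_iff hx).1 ha
      have h4 := ((hgen i ⟨a', ha'⟩ fun _ => by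
        change q.π a' = 0
        rw [← h3, q.π_mul (hZ ha) (hZ (A_le hx hb)), h0 hZ, zero_mul]).mono (A_le hx)).mul_right
        ((lp x).inv_mem h2)
      change InI _ _ (a' * b⁻¹) at h4
      rwa [← h3, mul_inv_cancel_right₀ (LP.ne_zero_of_ne h2)] at h4
    · obtain ⟨b, hb, h2, h3⟩ := exists_sepZ hx hZ
      have h4 := ((hgen i ⟨b, hb⟩ h3).mono (A_le hx)).mul_left (LP.div_mem ha h2)
      change InI _ _ (a / b * b) at h4
      rwa [div_mul_cancel₀ _ (LP.ne_zero_of_ne h2)] at h4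
  have hne : Nonempty T := by
    by_contra h0
    obtain ⟨x, hx⟩ := h.ne
    obtain ⟨s, w, ha⟩ := h.crd x hx
    obtain ⟨i, hi⟩ := exists_pat x
    obtain ⟨r, -, hr⟩ := hloc i x hi _ (ha.s_mem ⟨0, hc⟩) fun _ => ha.π_s _
    rw [not_nonempty_iff] at h0
    exact ha.s_ne _ (by rw [hr, Finset.univ_eq_empty, Finset.sum_empty])
  obtain ⟨M, hM⟩ := Nat.exists_eq_succ_of_ne_zero (Fintype.card_pos (α := T)).ne'
  let ε : T ≃ Fin (M + 1) := Fintype.equivFinOfCardEq hM
  have hkey : ∀ a ∈ T, ∀ i', a / P.y i' ^ m ∈ P.A i' ∧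
      (P.A i' ≤ q.O → q.π (a / P.y i' ^ m) = 0) := by
    intro a ha i'
    obtain ⟨-, i, g, hg, rfl⟩ := hT.1 ha
    obtain ⟨k, hk⟩ := Nat.exists_eq_add_of_lt (hlt i i' g hg)
    have h2 : (g : F) * P.y i ^ m / P.y i' ^ m =
        P.y i / P.y i' * ((P.y i / P.y i') ^ k * ((P.y i / P.y i') ^ e i i' g * g)) := by
      rw [mul_div_assoc, ← div_pow, hk]
      ring
    have h3 := div_mem_chart (k := ℂ) P.y i' i
    refine ⟨h2 ▸ mul_mem h3 (mul_mem (pow_mem h3 _) (he i i' g)), fun hA => ?_⟩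
    rw [h2, q.π_mul (hA h3) (hA (mul_mem (pow_mem h3 _) (he i i' g)))]
    by_cases h4 : q.π (P.y i / P.y i') = 0
    · rw [h4, zero_mul]
    · have h5 := A_le_of_ne hA h4
      have h6 : q.π g = 0 := (show g ∈ chI (P := P) q i from hS i ▸ Submodule.subset_span hg) h5
      rw [q.π_mul (hA (pow_mem h3 _)) (hA (he i i' g)), q.π_mul (hA (pow_mem h3 _)) (h5 g.2), h6]
      simp
  refine ⟨⟨M, m, fun j => ε.symm j, fun j => (hT.1 (ε.symm j).2).1,
    fun j i => (hkey _ (ε.symm j).2 i).1, fun j i => (hkey _ (ε.symm j).2 i).2,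
    fun i x hx a ha h0 => (hloc i x hx a ha h0).trans fun j => ?_⟩⟩
  simpa using InI.self (O := (lp x).O) (s := fun j => (ε.symm j : F) / P.y i ^ m) (ε j)

namespace Gens

variable (G : Gens P q)

/-- the local generators -/
abbrev g (i : Fin (P.N + 1)) (j : Fin (G.M + 1)) : F := G.f j / P.y i ^ G.m

theorem g_ne (i : Fin (P.N + 1)) (j : Fin (G.M + 1)) : G.g i j ≠ 0 :=
  div_ne_zero (G.ne j) (pow_ne_zero _ (P.y_ne i))

theorem g_div (i : Fin (P.N + 1)) (k j : Fin (G.M + 1)) : G.g i k / G.g i j = G.f k / G.f j :=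
  div_div_div_cancel_right₀ (pow_ne_zero _ (P.y_ne i)) _ _

variable {G} {i : Fin (P.N + 1)} {j : Fin (G.M + 1)} {x : Pts P} {L' : LP F}
  {s : Fin c → F} {w : Fin d → F}

theorem g_mem (hx : x ∈ pat P i) (j : Fin (G.M + 1)) : G.g i j ∈ (lp x).O := A_le hx (G.mem j i)

theorem inI_g (ha : Ad q x s w) (hx : x ∈ pat P i) (j : Fin (G.M + 1)) :
    InI (lp x).O s (G.g i j) :=
  (ha.ker _ (g_mem hx j)).1 (G.van j i ((A_le hx).trans ha.le))

theorem inI_s (ha : Ad q x s w) (hx : x ∈ pat P i) (a : Fin c) : InI (lp x).O (G.g i) (s a) :=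
  G.gen i x hx _ (ha.s_mem a) fun _ => ha.π_s a

theorem inI_one (hx : x ∈ pat P i) (hZ : ¬ (lp x).O ≤ q.O) : InI (lp x).O (G.g i) 1 :=
  G.gen i x hx _ (one_mem _) fun h => absurd h hZ

/-- if `1` is a combination, one of the members does not vanish -/
theorem _root_.Crest.Agent.X262.Blow.InI.exists_ne {ι : Type} [Fintype ι] {L : LP F} {s : ι → F}
    {a b : F} (h : InI L.O s a) (hs : ∀ l, s l / b ∈ L.O) (h0 : L.v (a / b) ≠ 0) :
    ∃ l, L.v (s l / b) ≠ 0 := by
  by_contra h1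
  push Not at h1
  obtain ⟨r, hr, rfl⟩ := h
  exact h0 (InI.v_eq (s := fun l => s l / b)
    ⟨r, hr, by simp only [Finset.sum_div, mul_div_assoc]⟩ hs h1)

theorem exists_unit (hx : x ∈ pat P i) (hZ : ¬ (lp x).O ≤ q.O) : ∃ j, ev (G.g i j) x ≠ 0 := by
  simpa using (inI_one (G := G) hx hZ).exists_ne (b := 1) (by simpa using g_mem hx) (by simp)

theorem chB_le_of_unit (hx : x ∈ pat P i) (h0 : ev (G.g i j) x ≠ 0) :
    chB (P.A i) G.f j ≤ (lp x).O :=
  chB_le (A_le hx) fun k => G.g_div i k j ▸ LP.div_mem (g_mem hx k) h0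

theorem eq_of_off (hL : L'.Of (chB (P.A i) G.f j)) (hx : x ∈ pat P i) (hd : (lp x).Dom L')
    (hZ : ¬ (lp x).O ≤ q.O) : lp x = L' := by
  refine eq_of_of hL hd (chB_le_of_unit hx ?_)
  have h1 : 1 / G.g i j ∈ L'.O := ((inI_one hx hZ).mono hd.le).div_mem fun k =>
    G.g_div i k j ▸ hL.le (u_mem_chB k)
  rw [one_div] at h1
  rw [ev, ← hd.eq _ (g_mem hx j)]
  exact LP.ne_of_inv_mem (hd.le (g_mem hx j)) (G.g_ne i j) h1

theorem over_of (hL : L'.Of (chB (P.A i) G.f j)) (hx : x ∈ pat P i) (hd : (lp x).Dom L')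
    (ha : Ad q x s w) : ∃ l, Over (lp x) L' s l ∧ L'.v (s l / G.g i j) ≠ 0 := by
  have h1 : ∀ a, s a / G.g i j ∈ L'.O := fun a => ((inI_s ha hx a).mono hd.le).div_mem fun k =>
    G.g_div i k j ▸ hL.le (u_mem_chB k)
  obtain ⟨l, hl⟩ := ((inI_g ha hx j).mono hd.le).exists_ne h1 (by simp [div_self (G.g_ne i j)])
  have h2 : ∀ a, s a / s l ∈ L'.O := fun a =>
    div_div_div_cancel_right₀ (G.g_ne i j) (s a) (s l) ▸ LP.div_mem (h1 a) hl
  have h3 : ∀ k, G.g i k / s l ∈ chB (lp x).O s l := fun k =>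
    ((inI_g ha hx k).mono le_chB).div_mem u_mem_chB
  refine ⟨l, ⟨hd, h2, (of_of_le hL (chB_le hd.le h2) (chB_le
    ((A_le hx).trans (le_chB.trans (le_lpAt _))) fun k => ?_)).loc⟩, hl⟩
  rw [← G.g_div i, ← div_div_div_cancel_right₀ (ha.s_ne l)]
  refine div_mem_resV _ (h3 k) (h3 j) ?_
  rw [← inv_div, LP.v_inv hl]
  exact inv_ne_zero hl

/-- the converse: a point over `x` lies in a chart -/
theorem of_over (hx : x ∈ pat P i) (ha : Ad q x s w) {l : Fin c} (ho : Over (lp x) L' s l) :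
    ∃ j, L'.Of (chB (P.A i) G.f j) ∧ L'.v (G.g i j / s l) ≠ 0 := by
  have h1 : ∀ k, G.g i k / s l ∈ L'.O := fun k => ((inI_g ha hx k).mono ho.dom.le).div_mem ho.mem
  obtain ⟨j, hj⟩ := ((inI_s ha hx l).mono ho.dom.le).exists_ne h1 (by simp [div_self (ha.s_ne l)])
  have h2 : chB (P.A i) G.f j ≤ L'.O := chB_le ((A_le hx).trans ho.dom.le) fun k => by
    rw [← G.g_div i, ← div_div_div_cancel_right₀ (ha.s_ne l)]
    exact LP.div_mem (h1 k) hj
  have h5 := dom_resV h2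
  have h6 := fun a b => div_mem_resV h2 (a := a) (b := b)
  have h7 : chB (P.A i) G.f j ≤ (lpAt (resV h2)).O := le_lpAt _
  refine ⟨j, of_of_le ho.of h2 ?_, hj⟩
  generalize lpAt (resV h2) = L₁ at h5 h6 h7 ⊢
  have h3 : (lp x).O ≤ L₁.O := fun f hf => by
    obtain ⟨a, ha', b, hb, h0, h4⟩ := (mem_lp_iff hx).1 hf
    rw [← mul_div_cancel_right₀ f (LP.ne_zero_of_ne h0), h4]
    exact h6 _ _ (le_chB ha') (le_chB hb) (by rwa [ho.dom.eq _ (A_le hx hb)])
  have h4 : ∀ a, s a / G.g i j ∈ L₁.O := fun a =>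
    ((inI_s ha hx a).mono h3).div_mem fun k => by
      rw [G.g_div i k j]
      exact h7 (u_mem_chB k)
  refine chB_le h3 fun a => ?_
  rw [← div_div_div_cancel_right₀ (G.g_ne i j)]
  refine LP.div_mem (h4 a) ?_
  rw [← h5.eq _ (h4 l), ← inv_div, LP.v_inv hj]
  exact inv_ne_zero hj

variable (G)

/-- the indices of the coordinates of the blow-up -/
def seg : Fin ((P.N + 1) * G.M + P.N + 1) ≃ Fin (P.N + 1) × Fin (G.M + 1) :=
  (finProdFinEquiv (m := P.N + 1) (n := G.M + 1)).symm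

/-- the coordinates of the blow-up -/
def Y (k : Fin ((P.N + 1) * G.M + P.N + 1)) : F := P.y (G.seg k).1 * G.f (G.seg k).2

theorem Y_div (k k' : Fin ((P.N + 1) * G.M + P.N + 1)) : G.Y k' / G.Y k =
    P.y (G.seg k').1 / P.y (G.seg k).1 * (G.f (G.seg k').2 / G.f (G.seg k).2) :=
  mul_div_mul_comm _ _ _ _

theorem chart_Y (k : Fin ((P.N + 1) * G.M + P.N + 1)) :
    chart ℂ G.Y k = chB (P.A (G.seg k).1) G.f (G.seg k).2 := by
  refine le_antisymm (Algebra.adjoin_le ?_) (chB_le (Algebra.adjoin_le ?_) fun a => ?_)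
  · rintro _ ⟨k', rfl⟩
    change G.Y k' / G.Y k ∈ _
    rw [Y_div]
    exact mul_mem (le_chB (div_mem_chart P.y _ _)) (u_mem_chB _)
  · rintro _ ⟨i, rfl⟩
    have h1 := div_mem_chart (k := ℂ) G.Y k (G.seg.symm (i, (G.seg k).2))
    rwa [Y_div, Equiv.apply_symm_apply, div_self (G.ne _), mul_one] at h1
  · have h1 := div_mem_chart (k := ℂ) G.Y k (G.seg.symm ((G.seg k).1, a))
    rwa [Y_div, Equiv.apply_symm_apply, div_self (P.y_ne _), one_mul] at h1

/-- **the blow-up** -/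
def bl (h : SmC P q c d) : PModel ℂ F where
  N := (P.N + 1) * G.M + P.N
  y := G.Y
  y_ne k := mul_ne_zero (P.y_ne _) (G.ne _)
  frac f := by
    obtain ⟨a, ha, b, hb, h0, h1⟩ := P.frac' (G.seg 0).1 f
    rw [chart_Y]
    exact ⟨a, le_chB ha, b, le_chB hb, h0, h1⟩
  smooth k := by
    have : Algebra.FiniteType ℂ (chart ℂ G.Y k) :=
      Algebra.FiniteType.adjoin_of_finite (Set.finite_range _)
    refine smooth_of_coords fun φ => ?_
    have hL : (lpAt φ).Of (chB (P.A (G.seg k).1) G.f (G.seg k).2) :=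
      G.chart_Y k ▸ LP.of_lpAt φ
    obtain ⟨x, hx, hd⟩ := exists_dom (i := (G.seg k).1) (lpAt φ) fun j =>
      hL.le (le_chB (div_mem_chart P.y _ j))
    rw [lo_eq]
    by_cases hZ : (lp x).O ≤ q.O
    · obtain ⟨s, w, ha⟩ := h.crd x hZ
      obtain ⟨l, ho, -⟩ := over_of hL hx hd ha
      exact (ho.coI ha.co).exists_coords
    · obtain ⟨b⟩ := h.exists_basis
      exact ⟨_, eq_of_off hL hx hd hZ ▸ exists_coords_of_basis b x⟩

variable (h : SmC P q c d)

/-- the index of the coordinate `y i * f j` -/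
def ix (i : Fin (P.N + 1)) (j : Fin (G.M + 1)) : Fin ((G.bl h).N + 1) := G.seg.symm (i, j)

theorem ix_surj (k : Fin ((G.bl h).N + 1)) : ∃ i j, G.ix h i j = k :=
  ⟨(G.seg k).1, (G.seg k).2, G.seg.symm_apply_apply k⟩

theorem y_ix (i : Fin (P.N + 1)) (j : Fin (G.M + 1)) :
    (G.bl h).y (G.ix h i j) = P.y i * G.f j := by
  change P.y (G.seg (G.seg.symm (i, j))).1 * G.f (G.seg (G.seg.symm (i, j))).2 = _
  rw [Equiv.apply_symm_apply]

theorem A_ix (i : Fin (P.N + 1)) (j : Fin (G.M + 1)) :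
    (G.bl h).A (G.ix h i j) = chB (P.A i) G.f j := by
  have h1 := G.chart_Y (G.seg.symm (i, j))
  rw [Equiv.apply_symm_apply] at h1
  exact h1

/-- the morphism from the blow-up -/
def r : Mor (G.bl h) P where
  p := Plc.ofHom (AlgHom.id ℂ F)
  reg x' := by
    obtain ⟨k, hk⟩ := exists_pat x'
    obtain ⟨i, j, rfl⟩ := G.ix_surj h k
    exact ⟨i, fun j => ⟨Algebra.mem_top,
      A_le hk (G.A_ix h i _ ▸ le_chB (div_mem_chart P.y _ j))⟩⟩


variable {G h} {x' : Pts (G.bl h)}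

theorem r_dom (x' : Pts (G.bl h)) : (lp ((G.r h).map x')).Dom (lp x') :=
  ⟨fun _ hf => (G.r h).π_mem hf, fun _ hf => ((G.r h).ev_map hf).symm⟩

theorem r_eq (hd : (lp x).Dom (lp x')) : (G.r h).map x' = x :=
  (G.r h).map_eq ⟨fun _ hf => ⟨Algebra.mem_top, hd.le hf⟩, hd.eq⟩

theorem mem_pat_ix : x' ∈ pat (G.bl h) (G.ix h i j) ↔
    (G.r h).map x' ∈ pat P i ∧ ∀ k, G.f k / G.f j ∈ (lp x').O := by
  constructor
  · intro hx
    have h1 := A_le hx
    rw [A_ix] at h1
    exact ⟨mem_pat_of_dom (r_dom x') fun k => h1 (le_chB (div_mem_chart P.y _ k)),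
      fun k => h1 (u_mem_chB k)⟩
  · rintro ⟨h1, h2⟩
    refine mem_pat_of_mem fun k => ?_
    obtain ⟨i', j', rfl⟩ := G.ix_surj h k
    rw [y_ix, y_ix, mul_div_mul_comm]
    exact mul_mem ((r_dom x').le (y_mem h1 _)) (h2 _)

/-- one of the sections generates -/
theorem exists_gen (x' : Pts (G.bl h)) : ∃ j, ∀ k, G.f k / G.f j ∈ (lp x').O := by
  obtain ⟨k, hk⟩ := exists_pat x'
  obtain ⟨i, j, rfl⟩ := G.ix_surj h k
  exact ⟨j, (mem_pat_ix.1 hk).2⟩

theorem of_gen (hi : (G.r h).map x' ∈ pat P i) (hj : ∀ k, G.f k / G.f j ∈ (lp x').O) :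
    (lp x').Of (chB (P.A i) G.f j) := G.A_ix h i j ▸ lp_of (mem_pat_ix.2 ⟨hi, hj⟩)

theorem exists_of (x' : Pts (G.bl h)) (hi : (G.r h).map x' ∈ pat P i) :
    ∃ j, (lp x').Of (chB (P.A i) G.f j) := (exists_gen x').imp fun _ hj => of_gen hi hj

theorem exists_pt_of (hL : L'.Of (chB (P.A i) G.f j)) :
    ∃ x' ∈ pat (G.bl h) (G.ix h i j), lp x' = L' := by
  rw [← G.A_ix h] at hL
  obtain ⟨x', hx', hd⟩ := exists_dom (P := G.bl h) L' fun k => hL.le (div_mem_chart _ _ k)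
  exact ⟨x', hx', eq_of_of hL hd (A_le hx')⟩

/-- off the centre nothing happens -/
theorem lp_off (hZ : ¬ (lp ((G.r h).map x')).O ≤ q.O) : lp ((G.r h).map x') = lp x' := by
  obtain ⟨i, hi⟩ := exists_pat ((G.r h).map x')
  obtain ⟨j, hj⟩ := exists_of x' hi
  exact eq_of_off hj hi (r_dom x') hZ

theorem exists_off (hZ : ¬ (lp x).O ≤ q.O) :
    ∃ x' : Pts (G.bl h), lp x' = lp x ∧ (G.r h).map x' = x := by
  obtain ⟨i, hi⟩ := exists_pat x
  obtain ⟨j, hj⟩ := exists_unit (G := G) hi hZ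
  obtain ⟨x', -, h1⟩ := exists_pt_of (h := h) (of_of_le (lp_of hi) (chB_le_of_unit hi hj)
    (le_chB.trans (le_lpAt _)))
  exact ⟨x', h1, r_eq (h1 ▸ ⟨le_rfl, fun _ _ => rfl⟩)⟩

/-- the points over the centre -/
theorem exists_chart (ha : Ad q ((G.r h).map x') s w) :
    ∃ l, Over (lp ((G.r h).map x')) (lp x') s l := by
  obtain ⟨i, hi⟩ := exists_pat ((G.r h).map x')
  obtain ⟨j, hj⟩ := exists_of x' hi
  exact (over_of hj hi (r_dom x') ha).imp fun _ h => h.1

theorem exists_on (ha : Ad q x s w) {l : Fin c} (ho : Over (lp x) L' s l) :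
    ∃ x' : Pts (G.bl h), lp x' = L' ∧ (G.r h).map x' = x := by
  obtain ⟨i, hi⟩ := exists_pat x
  obtain ⟨j, hj, -⟩ := of_over (G := G) hi ha ho
  obtain ⟨x', -, h1⟩ := exists_pt_of (h := h) hj
  exact ⟨x', h1, r_eq (h1 ▸ ho.dom)⟩

/-- every direction occurs -/
theorem exists_dir (ha : Ad q x s w) {l : Fin c} {ξ : Fin c → ℂ} (hξ : ξ l = 1) :
    ∃ x' : Pts (G.bl h), (G.r h).map x' = x ∧ Over (lp x) (lp x') s l ∧
      ∀ a, ev (s a / s l) x' = ξ a := by
  obtain ⟨L', ho, hv⟩ := exists_over ha.co.dual ha.ev_s hξ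
  obtain ⟨x', rfl, h1⟩ := exists_on (G := G) (h := h) ha ho
  exact ⟨x', h1, ho, hv⟩

theorem r_surjective (hc : 0 < c) : Function.Surjective (G.r h).map := by
  intro x
  by_cases hZ : (lp x).O ≤ q.O
  · obtain ⟨s, w, ha⟩ := h.crd x hZ
    exact (exists_dir ha (l := ⟨0, hc⟩) (ξ := fun _ => 1) rfl).imp fun _ h => h.1
  · exact (exists_off hZ).imp fun _ h => h.2

end Gens

end Crest.Agent.X262.Blow
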