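import Crest.Agent.X262.Blow.Exc

/-!
# Row 262, BLOW (helper98), part PB: the exceptional divisor is a projective bundle

* `Md q P Z`        : `Z` is a model of the centre of `q` on `P`; `Md.mor` the embedding;
* `PBun π lam c`    : `(π, lam)` identifies `E` with the projectivisation of a subbundle of rank `c`
                      of a trivial bundle on `Z`;
* `ExcP v p`        : `p` is the residue map of the valuation ring of `v`; `exists_excP`;
* `smC_exc`         : the exceptional divisor is a smooth centre of codimension one;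
* `iota`, `prj`, `prj_comm` : the projection of the exceptional divisor to the centre;
* `pbun_exc`, `ind_exc`, `gen_exc` : the bundle structure, the function field.
-/

set_option autoImplicit false
set_option linter.unusedSectionVars false

open WithZero Filter

noncomputable section

namespace Crest.Agent.X262.Blow

open Crest.Agent.X277.Lef Crest.Agent.X277.Res.Out Crest.Agent.X277.AN.G1
  Crest.Agent.X277.Res.Log Crest.Agent.X277.Strat.Fac MvPolynomial
open Crest.Agent.X277.Link (Eqn Loc Nrm IsPD v_div_le v_eq_one)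

variable {F κ K : Type} [Field F] [Field κ] [Field K] [Algebra ℂ F] [Algebra ℂ κ] [Algebra ℂ K]
  {q : Plc F κ} {p : Plc F K} {v : Valuation F ℤᵐ⁰} {P : PModel ℂ F} {Z : PModel ℂ κ}
  {c d : ℕ}

/-- `Z` is a model of the centre of `q` on `P` -/
structure Md (q : Plc F κ) (P : PModel ℂ F) (Z : PModel ℂ κ) : Prop where
  up : ∀ z : Pts Z, ∃ x : Pts P, Ov q z x
  down : ∀ x : Pts P, (lp x).O ≤ q.O → ∃ z : Pts Z, Ov q z x

theorem md_of_mdl (h : Mdl q P Z) : Md q P Z := ⟨h.up, h.down⟩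

theorem SmC.md (h : SmC P q c d) : Md q P h.model := md_of_mdl h.mdl

namespace Md

variable (h : Md q P Z)

/-- the embedding of the centre -/
def mor : Mor Z P where
  p := q
  reg z := by
    obtain ⟨x, hx⟩ := h.up z
    obtain ⟨i, hi⟩ := exists_pat x
    exact ⟨i, fun j => ⟨hx.le (y_mem hi j), hx.mem _ (y_mem hi j)⟩⟩


theorem map_eq {z : Pts Z} {x : Pts P} (hx : Ov q z x) : h.mor.map z = x := h.mor.map_eq hx.dom

theorem ov (z : Pts Z) : Ov q z (h.mor.map z) := by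
  obtain ⟨x, hx⟩ := h.up z
  rwa [h.map_eq hx]

theorem injective : Function.Injective h.mor.map := fun z z' e =>
  (h.ov z).eq_up (e ▸ h.ov z')

theorem mem_range {x : Pts P} : x ∈ Set.range h.mor.map ↔ (lp x).O ≤ q.O :=
  ⟨fun ⟨z, hz⟩ => hz ▸ (h.ov z).le, fun hx => (h.down x hx).imp fun _ hz => h.map_eq hz⟩

end Md

/-- the image of a subalgebra under a place -/
def img (p : Plc κ K) (O : Subalgebra ℂ κ) : Subalgebra ℂ K := Algebra.adjoin ℂ (p.π '' O)




/-- `(π, lam)` identifies `E` with the projectivisation of a subbundle of rank `c` of the trivial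
bundle; locally the subbundle is the image of the matrix `R` -/
structure PBun {E : PModel ℂ K} {Z : PModel ℂ κ} (π : Mor E Z) {M : ℕ} (lam : Fin (M + 1) → K)
    (c : ℕ) : Prop where
  pos : 0 < c
  bpf : ∀ e : Pts E, ∃ j, lam j ≠ 0 ∧ ∀ i, lam i / lam j ∈ (lp e).O
  gen : ∀ (e : Pts E) (j : Fin (M + 1)), lam j ≠ 0 → (∀ i, lam i / lam j ∈ (lp e).O) →
    (lp e).Of (chB (img π.p (lp (π.map e)).O) lam j)
  triv : ∀ z : Pts Z, ∃ (R : Matrix (Fin (M + 1)) (Fin c) κ) (S : Matrix (Fin c) (Fin (M + 1)) κ),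
    (∀ i a, R i a ∈ (lp z).O) ∧ (∀ a i, S a i ∈ (lp z).O) ∧ S * R = 1 ∧
    (∀ i, lam i = ∑ k, π.p.π ((R * S) i k) * lam k) ∧
    ∀ ξ : Fin c → ℂ, ξ ≠ 0 → ∃ (e : Pts E) (j : Fin (M + 1)) (t : ℂ), π.map e = z ∧ lam j ≠ 0 ∧
      (∀ i, lam i / lam j ∈ (lp e).O) ∧ ∀ i, ∑ a, ev (R i a) z * ξ a = t * ev (lam i / lam j) e

/-- `p` is the residue map of the valuation ring of `v` -/
structure ExcP (v : Valuation F ℤᵐ⁰) (p : Plc F K) : Prop where
  mem : ∀ f, f ∈ p.O ↔ v f ≤ 1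
  surj : ∀ z, ∃ f ∈ p.O, p.π f = z

theorem ExcP.ne_iff (hp : ExcP v p) {f : F} : p.π f ≠ 0 ↔ v f = 1 := by
  rw [← un_plc]
  exact ⟨fun h => v_eq_one h.1 ((hp.mem _).1 h.2.1) ((hp.mem _).1 h.2.2), fun h =>
    ⟨Crest.Agent.X277.Link.ne_of_v_one h, (hp.mem _).2 h.le,
      (hp.mem _).2 (by rw [map_inv₀, h, inv_one])⟩⟩

theorem ExcP.eq_iff (hp : ExcP v p) {f : F} (hf : v f ≤ 1) : p.π f = 0 ↔ v f < 1 := by
  rw [← not_iff_not, ← ne_eq, hp.ne_iff, not_lt]
  exact ⟨fun h => h.ge, fun h => le_antisymm hf h⟩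

theorem ExcP.le_iff (hp : ExcP v p) {x : Pts P} : (lp x).O ≤ p.O ↔ On v x :=
  ⟨fun h f hf => (hp.mem f).1 (h hf), fun h f hf => (hp.mem f).2 (h f hf)⟩

/-- the residue map of a surjection from the valuation ring -/
theorem excP_plcAt {W : Subalgebra ℂ F} (hW : ∀ f, f ∈ W ↔ v f ≤ 1) (ψ : W →ₐ[ℂ] K)
    (h1 : Function.Surjective ψ) (h2 : ∀ a : W, v a < 1 → ψ a = 0) : ExcP v (plcAt ψ) := by
  refine ⟨fun f => ⟨?_, fun hf => le_plcAt ψ ((hW f).2 hf)⟩, fun z => ?_⟩
  · rintro ⟨a, b, hb, h3⟩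
    have h4 : v b = 1 := le_antisymm ((hW _).1 b.2) (not_lt.1 fun h5 => hb (h2 b h5))
    have h5 := (hW _).1 a.2
    rwa [← h3, map_mul, h4, mul_one] at h5
  · obtain ⟨a, rfl⟩ := h1 z
    exact ⟨a, le_plcAt ψ a.2, plcAt_π ψ a⟩

theorem exists_excP (hv : ∀ c : ℂ, v (algebraMap ℂ F c) ≤ 1) :
    ∃ (K : Type) (_ : Field K) (_ : Algebra ℂ K) (p : Plc F K), ExcP v p := by
  have : IsLocalRing (vr v hv) := inferInstanceAs (IsLocalRing v.valuationSubring)
  refine ⟨IsLocalRing.ResidueField (vr v hv), inferInstance, inferInstance, _,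
    excP_plcAt (fun _ => mem_vr) (Ideal.Quotient.mkₐ ℂ (IsLocalRing.maximalIdeal (vr v hv)))
      Ideal.Quotient.mk_surjective fun a ha => Ideal.Quotient.eq_zero_iff_mem.2 ?_⟩
  rw [← van_iff_mem_max]
  exact ⟨a.2, fun h => ha.ne (v_eq_one h.1 h.2.1 h.2.2)⟩

section Exc

variable {G : Gens P q} {h : SmC P q c d} (hv : IsOrd q v) (hp : ExcP v p)
include hv hp

theorem q_le : q.O ≤ p.O := fun _ hf => (hp.mem _).2 (hv.le_one hf)

theorem p_eq_iff {f : F} (hf : f ∈ q.O) : p.π f = 0 ↔ q.π f = 0 :=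
  (hp.eq_iff (hv.le_one hf)).trans (hv.lt_one_iff hf)

theorem ad_exc {x : Pts P} {x' : Pts (G.bl h)} {s : Fin c → F} {w : Fin d → F} (ha : Ad q x s w)
    {l : Fin c} (ho : Over (lp x) (lp x') s l) {d' : ℕ} (hd : 1 + d' = c + d) :
    ∃ w' : Fin d' → F, Ad p x' (fun _ : Fin 1 => s l) w' := by
  have he := hv.eqn_over ha ho
  have h1 := exists_ad (q := p) hd (hp.le_iff.2 he.loc.le)
    ((ho.coI ha.co).coords finSumFinEquiv.symm) (σ := fun _ : Fin 1 => finSumFinEquiv (Sum.inl l))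
    (fun _ _ _ => Subsingleton.elim _ _)
  simp only [Equiv.symm_apply_apply, Sum.elim_inl, bs_self] at h1
  refine h1 fun a ha' => ?_
  rw [hp.eq_iff (he.loc.le a ha'), he.lt_iff ha', inI_unique]
  exact ⟨fun h2 => ⟨_, h2, (div_mul_cancel₀ _ he.ne).symm⟩, fun ⟨r, hr, h2⟩ => by
    rwa [h2, mul_div_cancel_right₀ _ he.ne]⟩

variable (G h) in
/-- **the exceptional divisor is smooth** -/
theorem smC_exc (hc : 0 < c) {d' : ℕ} (hd : 1 + d' = c + d) : SmC (G.bl h) p 1 d' where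
  surj := hp.surj
  ne := (hv.exists_on_bl G h hc).imp fun _ h1 => hp.le_iff.2 h1
  loc x' hx f hf := by
    obtain ⟨b, hb, h1, h2⟩ := ((hv.isPD G h hc).loc_lp (hp.le_iff.1 hx)).den f ((hp.mem f).1 hf)
    exact ⟨_, h2, b, hb, hp.ne_iff.2 h1, mul_comm _ _⟩
  crd x' hx := by
    obtain ⟨s, w, ha⟩ := h.crd _ (hv.on_bl.1 (hp.le_iff.1 hx))
    obtain ⟨l, ho⟩ := Gens.exists_chart ha
    exact ⟨_, ad_exc hv hp ha ho hd⟩

variable (h) in
/-- the inclusion of function fields -/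
def iota : κ →ₐ[ℂ] K :=
  AlgHom.liftOfSurjective q.hom (fun z => (h.surj z).elim fun f hf => ⟨⟨f, hf.1⟩, hf.2⟩)
    (p.hom.comp (Subalgebra.inclusion (q_le hv hp))) fun a ha => (p_eq_iff hv hp a.2).2 ha

variable (h) in
theorem iota_π {f : F} (hf : f ∈ q.O) : iota h hv hp (q.π f) = p.π f :=
  AlgHom.liftOfSurjective_apply q.hom _ _ _ ⟨f, hf⟩

variable {E : PModel ℂ K} (hE : Md p (G.bl h) E) (hZ : Md q P Z)

theorem dom_exc {e : Pts E} {z : Pts Z} {x' : Pts (G.bl h)} (he : Ov p e x')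
    (hz : Ov q z ((G.r h).map x')) : (lp z).Dom ((lp e).comap (Plc.ofHom (iota h hv hp))) := by
  have key : ∀ g ∈ (lp z).O, iota h hv hp g ∈ (lp e).O ∧ ev (iota h hv hp g) e = ev g z := by
    intro g hg
    obtain ⟨f, hf, rfl⟩ := hz.surj g hg
    rw [iota_π h hv hp (hz.le hf), he.ev_eq f ((Gens.r_dom x').le hf), hz.ev_eq f hf]
    exact ⟨he.mem f ((Gens.r_dom x').le hf), (Gens.r_dom x').eq f hf⟩
  exact ⟨fun g hg => ⟨Algebra.mem_top, (key g hg).1⟩, fun g hg => (key g hg).2⟩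

include hE hZ in
theorem exists_base (e : Pts E) : ∃ z : Pts Z, Ov q z ((G.r h).map (hE.mor.map e)) :=
  hZ.down _ (hv.on_bl.1 (hp.le_iff.1 (hE.ov e).le))

/-- the projection of the exceptional divisor to the centre -/
def prj : Mor E Z where
  p := Plc.ofHom (iota h hv hp)
  reg e := by
    obtain ⟨z, hz⟩ := exists_base hv hp hE hZ e
    obtain ⟨i, hi⟩ := exists_pat z
    exact ⟨i, fun j => (dom_exc hv hp (hE.ov e) hz).le (y_mem hi j)⟩


theorem prj_eq {e : Pts E} {z : Pts Z} (hz : Ov q z ((G.r h).map (hE.mor.map e))) :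
    (prj hv hp hE hZ).map e = z := (prj hv hp hE hZ).map_eq (dom_exc hv hp (hE.ov e) hz)

theorem prj_ov (e : Pts E) : Ov q ((prj hv hp hE hZ).map e) ((G.r h).map (hE.mor.map e)) := by
  obtain ⟨z, hz⟩ := exists_base hv hp hE hZ e
  rwa [prj_eq hv hp hE hZ hz]

theorem prj_comm (e : Pts E) :
    hZ.mor.map ((prj hv hp hE hZ).map e) = (G.r h).map (hE.mor.map e) :=
  hZ.map_eq (prj_ov hv hp hE hZ e)




variable (h) in
/-- the fibre coordinates are independent over the function field of the centre -/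
theorem ind_exc {ι : Type} [Fintype ι] [DecidableEq ι] {s : ι → F} (hs : CoI q.O s) (l : ι)
    {k : ℕ} {H : MvPolynomial ι κ} (hH : H.IsHomogeneous k)
    (h0 : eval₂ (iota h hv hp : κ →+* K) (fun a => p.π (s a / s l)) H = 0) : H = 0 := by
  classical
  have he := hv.eqn h.frac hs l
  choose σ hσ hσ' using h.surj
  let H' : MvPolynomial ι q.O := ∑ m ∈ H.support, monomial m ⟨_, hσ (coeff m H)⟩
  have h1 : map (q.hom : q.O →+* κ) H' = H := by
    rw [map_sum]
    simp only [map_monomial]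
    conv_rhs => rw [H.as_sum]
    exact Finset.sum_congr rfl fun m _ => congrArg _ (hσ' _)
  have h2 : H'.IsHomogeneous k := IsHomogeneous.sum _ _ _ fun m hm => isHomogeneous_monomial _ (by
    rw [hH.degree_eq_sum_deg_support hm, Finsupp.degree_apply])
  have h3 : ∀ a, s a / s l ∈ p.O := fun a => (hp.mem _).2 (he.loc.le _ (u_mem_chB a))
  have h4 := evO_mem (W := chB q.O s l) le_chB u_mem_chB H'
  rw [← h1, ← hs.div_mem_iff (l := l) h2, ← he.lt_iff h4, ← hp.eq_iff (he.loc.le _ h4),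
    π_evO (q_le hv hp) h3, ← h0, ← h1, eval₂_map]
  congr 1
  exact RingHom.ext fun a => (iota_π h hv hp a.2).symm

variable (h) in
/-- the function field of the exceptional divisor is generated by the fibre coordinates -/
theorem gen_exc {ι : Type} [Fintype ι] [DecidableEq ι] {s : ι → F} (hs : CoI q.O s) (l : ι)
    (g : K) : ∃ A B : MvPolynomial ι κ,
      eval₂ (iota h hv hp : κ →+* K) (fun a => p.π (s a / s l)) B ≠ 0 ∧
      g * eval₂ (iota h hv hp : κ →+* K) (fun a => p.π (s a / s l)) B =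
        eval₂ (iota h hv hp : κ →+* K) (fun a => p.π (s a / s l)) A := by
  have he := hv.eqn h.frac hs l
  have h3 : ∀ a, s a / s l ∈ p.O := fun a => (hp.mem _).2 (he.loc.le _ (u_mem_chB a))
  have key : ∀ b ∈ chB q.O s l, ∃ A : MvPolynomial ι κ,
      eval₂ (iota h hv hp : κ →+* K) (fun a => p.π (s a / s l)) A = p.π b := by
    intro b hb
    obtain ⟨H, rfl⟩ := exists_evO hb
    refine ⟨map (q.hom : q.O →+* κ) H, ?_⟩
    rw [π_evO (q_le hv hp) h3, eval₂_map]
    congr 1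
    exact RingHom.ext fun a => iota_π h hv hp a.2
  obtain ⟨f, hf, rfl⟩ := hp.surj g
  obtain ⟨b, hb, h1, h2⟩ := he.loc.den f ((hp.mem f).1 hf)
  obtain ⟨A, hA⟩ := key _ h2
  obtain ⟨B, hB⟩ := key _ hb
  exact ⟨A, B, hB ▸ hp.ne_iff.2 h1, by
    rw [hA, hB, p.π_mul ((hp.mem _).2 (he.loc.le _ hb)) hf, mul_comm]⟩






end Exc

end Crest.Agent.X262.Blow
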